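import Vale.Agent.P002.Surface.Basic

/-! Representations with prescribed boundary classes and their generic handles. -/

open Matrix

namespace Vale.Agent.P002.Global

open Vale.Agent.P002.Surface (Mat Tup rel)

variable {r g s : ℕ}

/-- Representations of a genus `g` surface group with boundary in the classes of `J`. -/
def HomC (J : Fin s → Mat r) : Set (Tup g r × (Fin s → Mat r)) :=
  {p | (∀ i, (p.1 i).1.det = 1 ∧ (p.1 i).2.det = 1) ∧
    (∀ i, ∃ k : Mat r, k.det = 1 ∧ p.2 i = k * J i * k.adjugate) ∧
    rel p.1 * (List.ofFn p.2).prod = 1}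

/-- No nonempty proper set of coordinates spans an invariant subspace. -/
def Connected (β : Matrix (Fin r) (Fin r) ℂ) : Prop :=
  ∀ S : Finset (Fin r), S.Nonempty → S ≠ Finset.univ → ∃ m ∉ S, ∃ i ∈ S, β m i ≠ 0

/-- The matrix `A` has simple nonzero spectrum and the graph of `b` in its eigenbasis is connected. -/
def Simple (A b : Mat r) : Prop :=
  ∃ (V Vi : Mat r) (l : Fin r → ℂ), Vi * V = 1 ∧ A = V * diagonal l * Vi ∧
    Function.Injective l ∧ (∀ i, l i ≠ 0) ∧ Connected (Vi * b * V)

/-- The pair generates all matrices. -/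
def IrrPair (P : Mat r × Mat r) : Prop := Algebra.adjoin ℂ ({P.1, P.2} : Set (Mat r)) = ⊤

end Vale.Agent.P002.Global
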