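import Vale.Agent.P002.General.Point
import Vale.Agent.P002.Surface.Clock
import Vale.Agent.P002.Global.Defs

/-! An open piece of the representation space in the closure of the integral points. -/

open Matrix Filter Topology

namespace Vale.Agent.P002.Global

open Vale.Agent.P002
open Vale.Agent.P002.Surface (Mat Tup rel PF PMap Weyl mul_adj adj_mul det_adj)
open Vale.Agent.P002.General (Sp YSp bd tailRel GoodY IntY ClS)

/-- Indices of the entries of a tuple. -/
abbrev Coord (g s r : ℕ) : Type := (Fin g × Bool × Fin r × Fin r) ⊕ (Fin s × Fin r × Fin r)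

/-- The entry of `p` at an index; `false` is the first matrix of a handle, `true` the second. -/
def entries {g s r : ℕ} (p : Tup g r × (Fin s → Mat r)) : Coord g s r → ℂ :=
  Sum.elim (fun q => (if q.2.1 then (p.1 q.1).2 else (p.1 q.1).1) q.2.2.1 q.2.2.2)
    fun q => p.2 q.1 q.2.1 q.2.2

section

attribute [local instance] Matrix.linftyOpNormedAddCommGroup Matrix.linftyOpNormedSpace
  Matrix.linftyOpNormedRing Matrix.linftyOpNormedAlgebra

variable {r n s : ℕ}

lemma pf_eval (f : MvPolynomial (Coord (n + 2) s r) ℂ) :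
    (fun p : Tup (n + 2) r × (Fin s → Mat r) => MvPolynomial.eval (entries p) f) ∈
      PF (Tup (n + 2) r × (Fin s → Mat r)) := by
  induction f using MvPolynomial.induction_on with
  | C c => simpa using Surface.PF.const c
  | add p q hp hq =>
    simp only [map_add]
    exact (PF _).add_mem hp hq
  | mul_X p q hp =>
    simp only [map_mul, MvPolynomial.eval_X]
    refine (PF _).mul_mem hp ?_
    rcases q with ⟨i, b, a, c⟩ | ⟨i, a, c⟩
    · cases b
      · exact ((PMap.slot1 i).comp PMap.fst).entry a c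
      · exact ((PMap.slot2 i).comp PMap.fst).entry a c
    · exact ((PMap.proj i).comp PMap.snd).entry a c

/-- Forget the conjugators. -/
private def forget (T : Fin s → Mat r) (q : Sp n s r) : Tup (n + 2) r × (Fin s → Mat r) :=
  (Fin.cons (q.1 0) (Fin.cons (q.1 1) q.2.1), bd T q.2.2)

private lemma forget_pmap (T : Fin s → Mat r) : PMap (fun q : Sp n s r => forget T q) := by
  refine PMap.prodMk (PMap.pi fun i => ?_)
    (PMap.pi fun i => (General.PMap.bd T i).comp PMap.snd)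
  refine Fin.cases ?_ (Fin.cases ?_ fun j => ?_) i
  · exact General.PMap.px 0
  · exact General.PMap.px 1
  · exact (General.PMap.yN j).comp PMap.snd

private lemma forget_mem {J T : Fin s → Mat r}
    (hcls : ∀ i, ∃ S : Mat r, S.det = 1 ∧ J i = S * T i * S.adjugate) {q : Sp n s r}
    (hq : q ∈ General.HomS T) : forget T q ∈ HomC (g := n + 2) J := by
  refine ⟨Fin.cases (hq.1 0) (Fin.cases (hq.1 1) hq.2.1.1), fun i => ?_, ?_⟩
  · obtain ⟨S, hS, hJ⟩ := hcls i
    refine ⟨q.2.2 i * S.adjugate, by rw [det_mul, hq.2.1.2 i, det_adj hS, one_mul], ?_⟩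
    show q.2.2 i * T i * (q.2.2 i).adjugate = _
    rw [hJ, adjugate_mul_distrib, General.adj_adj' hS]
    symm
    calc _ = q.2.2 i * (S.adjugate * S) * T i * (S.adjugate * S) * (q.2.2 i).adjugate := by
          simp only [mul_assoc]
      _ = _ := by rw [adj_mul hS, mul_one, mul_one]
  · rw [Surface.rel_split, ← hq.2.2, General.rel_two, General.tailRel, rel]
    show Surface.comm (q.1 0) * (Surface.comm (q.1 1) *
      (List.ofFn fun j : Fin n => Surface.comm (q.2.1 j)).prod) * _ = _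
    simp only [mul_assoc]
    rfl

private lemma closure_transfer {T : Fin s → Mat r} {R : Subring ℂ} {q : Sp n s r}
    (hq : q ∈ ClS T R) (f : MvPolynomial (Coord (n + 2) s r) ℂ)
    (hf : ∀ q' ∈ General.HomS T, General.IntS R q' →
      MvPolynomial.eval (entries (forget T q')) f = 0) :
    MvPolynomial.eval (entries (forget T q)) f = 0 :=
  hq (fun q' => MvPolynomial.eval (entries (forget T q')) f)
    (Surface.PF.comp (pf_eval f) (forget_pmap T)) hf

private lemma prime_transfer {P : Type*} [NormedAddCommGroup P] [NormedSpace ℂ P]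
    [FiniteDimensional ℂ P] {T : Fin s → Mat r} {Φ : P → Sp n s r} (hΦ : ContDiff ℂ 1 Φ)
    {U : Set (Tup (n + 2) r × (Fin s → Mat r))} (hU : IsOpen U) (h0 : forget T (Φ 0) ∈ U)
    (f₁ f₂ : MvPolynomial (Coord (n + 2) s r) ℂ)
    (h : ∀ t, forget T (Φ t) ∈ U → MvPolynomial.eval (entries (forget T (Φ t))) (f₁ * f₂) = 0) :
    (∀ t, MvPolynomial.eval (entries (forget T (Φ t))) f₁ = 0) ∨
      (∀ t, MvPolynomial.eval (entries (forget T (Φ t))) f₂ = 0) := by
  have hc := (Surface.PMap.contDiff (forget_pmap (n := n) T)).comp hΦ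
  refine General.prime_of_param hc (pf_eval f₁) (pf_eval f₂) ?_
  filter_upwards [hc.continuous.continuousAt.preimage_mem_nhds (hU.mem_nhds h0)] with t ht
  simpa using h t ht

/-- A parametrised part of the closure of the integral points covering a neighbourhood of a point
with trivial conjugators gives an integral-dense irreducible piece. -/
theorem piece_of_param {P : Type*} [NormedAddCommGroup P] [NormedSpace ℂ P] [FiniteDimensional ℂ P]
    (hr : 0 < r) {J T : Fin s → Mat r}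
    (hcls : ∀ i, ∃ k : Mat r, k.det = 1 ∧ J i = k * T i * k.adjugate)
    (L : IntermediateField ℚ ℂ)
    (hTR : ∀ i, Twisted.IntMat (L.toSubring ⊓ (integralClosure ℤ ℂ).toSubring) (T i))
    {q : Sp n s r} (hq1 : q.2.2 = fun _ => 1) (hirr : IrrPair (q.1 0))
    {Φ : P → Sp n s r} (hΦc : ContDiff ℂ 1 Φ) (hΦ0 : Φ 0 = q)
    (hΦcl : ∀ t, Φ t ∈ ClS T (L.toSubring ⊓ (integralClosure ℤ ℂ).toSubring))
    {U' : Set (Sp n s r)} (hU'o : IsOpen U') (hqU' : q ∈ U')
    (hcover : ∀ x ∈ U' ∩ General.HomS T, ∃ t, Φ t = x) :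
    ∃ p ∈ HomC (g := n + 2) J, IrrPair (p.1 0) ∧
      ∃ U : Set (Tup (n + 2) r × (Fin s → Mat r)), IsOpen U ∧ p ∈ U ∧
        (∀ x ∈ U ∩ HomC J, ∀ f : MvPolynomial (Coord (n + 2) s r) ℂ,
          (∀ y ∈ HomC J, (∀ q, entries y q ∈ L ∧ IsIntegral ℤ (entries y q)) →
            MvPolynomial.eval (entries y) f = 0) →
            MvPolynomial.eval (entries x) f = 0) ∧
        ∀ U' : Set (Tup (n + 2) r × (Fin s → Mat r)), IsOpen U' → p ∈ U' →
        ∀ f₁ f₂ : MvPolynomial (Coord (n + 2) s r) ℂ,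
          (∀ x ∈ U' ∩ HomC J, MvPolynomial.eval (entries x) (f₁ * f₂) = 0) →
            (∀ x ∈ U ∩ HomC J, MvPolynomial.eval (entries x) f₁ = 0) ∨
              (∀ x ∈ U ∩ HomC J, MvPolynomial.eval (entries x) f₂ = 0) := by
  choose S hS hJT using hcls
  have hcls : ∀ i, ∃ k : Mat r, k.det = 1 ∧ J i = k * T i * k.adjugate :=
    fun i => ⟨S i, hS i, hJT i⟩
  set p : Tup (n + 2) r × (Fin s → Mat r) := forget T q with hp
  have hpH : p ∈ HomC J := forget_mem hcls (by
    have := ClS.subset_hom (hΦcl 0)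
    rwa [hΦ0] at this)
  have hp2 : ∀ i, p.2 i = T i := fun i => by simp [hp, forget, bd, hq1]
  -- a neighbourhood of `p` whose representations lift into `U'`
  let lift : Tup (n + 2) r → (Fin s → Mat r) → Sp n s r :=
    fun x k => (![x 0, x 1], ((fun j => x j.succ.succ), k))
  have hlift0 : lift p.1 (fun _ => 1) = q := by
    refine Prod.ext ?_ (Prod.ext rfl hq1.symm)
    funext i
    fin_cases i <;> rfl
  have hev : ∀ᶠ z : Tup (n + 2) r × (Fin s → Mat r) in 𝓝 (p.1, fun _ => 1),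
      lift z.1 z.2 ∈ U' := by
    have hc : Continuous fun z : Tup (n + 2) r × (Fin s → Mat r) => lift z.1 z.2 := by
      refine Continuous.prodMk (continuous_pi fun i => ?_) (Continuous.prodMk
        (continuous_pi fun j => (continuous_apply j.succ.succ).comp continuous_fst) continuous_snd)
      fin_cases i
      · exact (continuous_apply (0 : Fin (n + 2))).comp continuous_fst
      · exact (continuous_apply (1 : Fin (n + 2))).comp continuous_fst
    exact hc.continuousAt.preimage_mem_nhds (hU'o.mem_nhds (by rw [hlift0]; exact hqU'))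
  rw [nhds_prod_eq] at hev
  obtain ⟨px, hpx, pk, hpk, hxk⟩ := eventually_prod_iff.1 hev
  have hpk' : {k | pk k} ∈ 𝓝 (fun _ : Fin s => (1 : Mat r)) := hpk
  rw [nhds_pi, Filter.mem_pi] at hpk'
  obtain ⟨I, -, V, hV, hIV⟩ := hpk'
  have hnb : ∀ᶠ z : Tup (n + 2) r × (Fin s → Mat r) in 𝓝 p, px z.1 ∧
      ∀ i, (∃ k : Mat r, k.det = 1 ∧ z.2 i = k * T i * k.adjugate) →
        ∃ k ∈ V i, k.det = 1 ∧ z.2 i = k * T i * k.adjugate := by
    refine (continuous_fst.continuousAt.eventually hpx).and (eventually_all.2 fun i => ?_)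
    have h := General.orbit_section hr (T := T i) (hV i)
    have hc : Tendsto (fun z : Tup (n + 2) r × (Fin s → Mat r) => z.2 i) (𝓝 p) (𝓝 (T i)) := by
      rw [← hp2 i]
      exact ((continuous_apply i).comp continuous_snd).tendsto p
    exact hc.eventually h
  obtain ⟨U, hU, hUo, hpU⟩ := eventually_nhds_iff.1 hnb
  have hcov : ∀ x ∈ U ∩ HomC J, ∃ t, forget T (Φ t) = x := by
    rintro x ⟨hxU, hxd, hxc, hxr⟩
    obtain ⟨hx1, hx2⟩ := hU x hxU
    have hxT : ∀ i, ∃ k ∈ V i, k.det = 1 ∧ x.2 i = k * T i * k.adjugate := fun i => by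
      obtain ⟨k, hk, hxk'⟩ := hxc i
      refine hx2 i ⟨k * S i, by rw [det_mul, hk, hS, one_mul], ?_⟩
      rw [hxk', hJT, adjugate_mul_distrib k (S i)]
      simp only [mul_assoc]
    choose k hkV hkd hkx using hxT
    have hin : lift x.1 k ∈ U' := hxk hx1 (hIV fun i _ => hkV i)
    have hf : forget T (lift x.1 k) = x := by
      refine Prod.ext ?_ (funext fun i => (hkx i).symm)
      funext i
      exact Fin.cases rfl (Fin.cases rfl fun j => rfl) i
    have hH : lift x.1 k ∈ General.HomS T := by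
      refine ⟨Fin.forall_fin_two.2 ⟨hxd 0, hxd 1⟩, ⟨fun j => hxd _, hkd⟩, ?_⟩
      rw [General.rel_two, tailRel, ← mul_assoc, ← hxr,
        show bd T (lift x.1 k).2.2 = x.2 from congrArg Prod.snd hf]
      congr 1
      rw [Surface.rel_split, ← mul_assoc]
      rfl
    obtain ⟨t, ht⟩ := hcover _ ⟨hin, hH⟩
    exact ⟨t, by rw [ht, hf]⟩
  have hΦH : ∀ t, forget T (Φ t) ∈ HomC J := fun t =>
    forget_mem hcls (ClS.subset_hom (hΦcl t))
  refine ⟨p, hpH, hirr, U, hUo, hpU, ?_, ?_⟩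
  · intro x hx f hf
    obtain ⟨t, rfl⟩ := hcov x hx
    refine closure_transfer (hΦcl t) f fun q hq hqi => ?_
    refine hf _ (forget_mem hcls hq) ?_
    rintro (⟨i, b, a, c⟩ | ⟨i, a, c⟩)
    · have hi : Twisted.IntMat (L.toSubring ⊓ (integralClosure ℤ ℂ).toSubring) ((forget T q).1 i).1 ∧
          Twisted.IntMat (L.toSubring ⊓ (integralClosure ℤ ℂ).toSubring) ((forget T q).1 i).2 :=
        Fin.cases (hqi.1 0) (Fin.cases (hqi.1 1) hqi.2.1) i
      cases b
      · exact ⟨(hi.1 a c).1, (hi.1 a c).2⟩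
      · exact ⟨(hi.2 a c).1, (hi.2 a c).2⟩
    · have hi : Twisted.IntMat (L.toSubring ⊓ (integralClosure ℤ ℂ).toSubring) ((forget T q).2 i) :=
        ((hqi.2.2 i).mul (hTR i)).mul (hqi.2.2 i).adjugate
      exact ⟨(hi a c).1, (hi a c).2⟩
  · intro U' hU'o' hpU'' f₁ f₂ h12
    have h0 : forget T (Φ 0) ∈ U' := by rw [hΦ0]; exact hpU''
    rcases prime_transfer hΦc hU'o' h0 f₁ f₂ (fun t ht => h12 _ ⟨ht, hΦH t⟩) with h | h
    · exact Or.inl fun x hx => by obtain ⟨t, rfl⟩ := hcov x hx; exact h t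
    · exact Or.inr fun x hx => by obtain ⟨t, rfl⟩ := hcov x hx; exact h t

end

/-- An integral-dense irreducible piece around a point with irreducible first handle. -/
theorem exists_base : ∀ (g r s : ℕ) (J : Fin s → Mat r), 2 ≤ r → (∀ i, (J i).det = 1) →
    (∀ i, ∀ μ : ℂ, (J i).charpoly.IsRoot μ → ∃ N > 0, μ ^ N = 1) →
    ∀ hg : 3 ≤ g,
    ∃ L : IntermediateField ℚ ℂ, FiniteDimensional ℚ L ∧
    ∃ p ∈ HomC (g := g) J, IrrPair (p.1 ⟨0, by omega⟩) ∧
      ∃ U : Set (Tup g r × (Fin s → Mat r)), IsOpen U ∧ p ∈ U ∧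
        (∀ x ∈ U ∩ HomC J, ∀ f : MvPolynomial (Coord g s r) ℂ,
          (∀ y ∈ HomC J, (∀ q, entries y q ∈ L ∧ IsIntegral ℤ (entries y q)) →
            MvPolynomial.eval (entries y) f = 0) →
            MvPolynomial.eval (entries x) f = 0) ∧
        ∀ U' : Set (Tup g r × (Fin s → Mat r)), IsOpen U' → p ∈ U' →
        ∀ f₁ f₂ : MvPolynomial (Coord g s r) ℂ,
          (∀ x ∈ U' ∩ HomC J, MvPolynomial.eval (entries x) (f₁ * f₂) = 0) →
            (∀ x ∈ U ∩ HomC J, MvPolynomial.eval (entries x) f₁ = 0) ∨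
              (∀ x ∈ U ∩ HomC J, MvPolynomial.eval (entries x) f₂ = 0) := by
  intro g r s J hr hdet hroot hg
  obtain ⟨n, rfl⟩ : ∃ n, g = n + 2 := ⟨g - 2, by omega⟩
  choose S₀ T₀ hS₀ hJT₀ hT₀ using fun i => General.exists_rep (hdet i) (hroot i)
  obtain ⟨D, hD, hTint, N0, hN0, hrel, hNint⟩ :=
    General.exists_handles (n := n) (by omega : 0 < r) (by omega) hT₀
  let T : Fin s → Mat r := fun i => D * T₀ i * D.adjugate
  let S : Fin s → Mat r := fun i => S₀ i * D.adjugate
  have hS : ∀ i, (S i).det = 1 := fun i => by simp only [S, det_mul, hS₀, det_adj hD, one_mul]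
  have hJT : ∀ i, J i = S i * T i * (S i).adjugate := fun i => by
    simp only [S, T, hJT₀, adjugate_mul_distrib, General.adj_adj' hD, mul_assoc]
    rw [← mul_assoc D.adjugate D, adj_mul hD, one_mul, ← mul_assoc D.adjugate D, adj_mul hD,
      one_mul]
  have hTd : ∀ i, (T i).det = 1 := fun i => by
    simp only [T, det_mul, hD, det_adj hD, (hT₀ i).2.1, one_mul]
  let S0 : Set ℂ := Set.range (fun q : Fin n × Fin r × Fin r => (N0 q.1).1 q.2.1 q.2.2) ∪
    Set.range (fun q : Fin n × Fin r × Fin r => (N0 q.1).2 q.2.1 q.2.2) ∪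
    Set.range (fun q : Fin s × Fin r × Fin r => T q.1 q.2.1 q.2.2)
  let L : IntermediateField ℚ ℂ := IntermediateField.adjoin ℚ S0
  let R : Subring ℂ := L.toSubring ⊓ (integralClosure ℤ ℂ).toSubring
  have hS0 : ∀ x ∈ S0, IsIntegral ℤ x := by
    rintro x ((⟨q, rfl⟩ | ⟨q, rfl⟩) | ⟨q, rfl⟩)
    exacts [(hNint q.1 q.2.1 q.2.2).1, (hNint q.1 q.2.1 q.2.2).2, hTint q.1 q.2.1 q.2.2]
  have hfin : FiniteDimensional ℚ L := by
    have : Finite S0 :=
      (((Set.finite_range _).union (Set.finite_range _)).union (Set.finite_range _)).to_subtype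
    exact IntermediateField.finiteDimensional_adjoin fun x hx => (hS0 x hx).tower_top
  have hmemR : ∀ x ∈ S0, x ∈ R := fun x hx => ⟨IntermediateField.subset_adjoin ℚ S0 hx, hS0 x hx⟩
  have hTR : ∀ i, (T i).det = 1 ∧ Twisted.IntMat R (T i) :=
    fun i => ⟨hTd i, fun a b => hmemR _ (Or.inr ⟨(i, a, b), rfl⟩)⟩
  let y0 : YSp n s r := (N0, fun _ => 1)
  have hy : GoodY y0 := ⟨hN0, fun _ => det_one⟩
  have hyi : IntY R y0 := ⟨fun i => ⟨fun a b => hmemR _ (Or.inl (Or.inl ⟨(i, a, b), rfl⟩)),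
    fun a b => hmemR _ (Or.inl (Or.inr ⟨(i, a, b), rfl⟩))⟩, fun _ => Twisted.IntMat.one⟩
  have hbd1 : bd T (fun _ => (1 : Mat r)) = T := funext fun i => by simp [bd]
  have hy1 : tailRel T y0 = 1 := by
    show rel N0 * (List.ofFn (bd T fun _ => (1 : Mat r))).prod = 1
    rw [hbd1, hrel]
  obtain ⟨ω, A, B, hW, hsp⟩ := Surface.exists_weyl hr
  obtain ⟨U', hU'o, hpU', N, K, Φ, hΦc, hΦ0, hΦcl, hcover⟩ :=
    General.exists_param (R := R) hr hW hsp hTR hy hyi hy1
  have hirr : IrrPair (A, B) := by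
    show Algebra.adjoin ℂ _ = ⊤
    rw [eq_top_iff]
    intro M _
    have hM : M ∈ Submodule.span ℂ
        (Set.range fun q : Fin r × Fin r => A ^ (q.1 : ℕ) * B ^ (q.2 : ℕ)) := by
      rw [hsp]; exact Submodule.mem_top
    refine (Submodule.span_le (p := Subalgebra.toSubmodule (Algebra.adjoin ℂ _))).2 ?_ hM
    rintro _ ⟨q, rfl⟩
    rw [SetLike.mem_coe, Subalgebra.mem_toSubmodule]
    refine mul_mem (pow_mem (Algebra.subset_adjoin ?_) _) (pow_mem (Algebra.subset_adjoin ?_) _)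
    · exact Or.inl rfl
    · exact Or.inr rfl
  exact ⟨L, hfin, piece_of_param (by omega) (fun i => ⟨S i, hS i, hJT i⟩) L (fun i => (hTR i).2)
    (q := (Surface.Mir 0 A B, y0)) rfl hirr hΦc hΦ0 hΦcl hU'o hpU' hcover⟩

end Vale.Agent.P002.Global
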