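import Vale.Agent.P002.Surface.Open

/-! Countable zero sets of entire functions, entire functions as a ring, and Krylov matrices. -/

open Matrix Filter Topology Polynomial

namespace Vale.Agent.P002.Global

open Vale.Agent.P002.Surface (Mat PMap)

attribute [local instance] Matrix.linftyOpNormedAddCommGroup Matrix.linftyOpNormedSpace
  Matrix.linftyOpNormedRing Matrix.linftyOpNormedAlgebra

lemma countable_zeros {f : ℂ → ℂ} (hf : Differentiable ℂ f) {z₀ : ℂ} (h0 : f z₀ ≠ 0) :
    {z | f z = 0}.Countable := by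
  have han : AnalyticOnNhd ℂ f Set.univ := fun w _ => hf.analyticAt w
  have hiso : ∀ z : {z | f z = 0}, ∃ U : Set ℂ, IsOpen U ∧ (z : ℂ) ∈ U ∧
      ∀ w ∈ U, f w = 0 → w = z := by
    intro z
    by_cases h : ∃ᶠ w in 𝓝[≠] (z : ℂ), f w = 0
    · exact absurd (han.eqOn_zero_of_preconnected_of_frequently_eq_zero isPreconnected_univ
        (Set.mem_univ _) h (Set.mem_univ z₀)) h0
    · rw [not_frequently, eventually_nhdsWithin_iff] at h
      obtain ⟨U, hU, hUo, hzU⟩ := eventually_nhds_iff.1 h
      exact ⟨U, hUo, hzU, fun w hw hw0 => by_contra fun hne => hU w hw hne hw0⟩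
  choose U hUo hUm hU using hiso
  obtain ⟨T, hT, hTU⟩ := TopologicalSpace.isOpen_iUnion_countable U hUo
  refine (hT.image Subtype.val).mono fun z hz => ?_
  have : z ∈ ⋃ i ∈ T, U i := by
    rw [hTU]; exact Set.mem_iUnion.2 ⟨⟨z, hz⟩, hUm ⟨z, hz⟩⟩
  simp only [Set.mem_iUnion] at this
  obtain ⟨i, hiT, hzi⟩ := this
  exact ⟨i, hiT, (hU i z hzi hz).symm⟩

/-- Entire functions. -/
def Ent : Subring (ℂ → ℂ) where
  carrier := {f | Differentiable ℂ f}
  mul_mem' ha hb := ha.mul hb
  one_mem' := differentiable_const _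
  add_mem' ha hb := ha.add hb
  zero_mem' := differentiable_const _
  neg_mem' ha := ha.neg

/-- Evaluation of entire functions. -/
def evEnt (t : ℂ) : Ent →+* ℂ := (Pi.evalRingHom (fun _ : ℂ => ℂ) t).comp Ent.subtype

variable {r : ℕ}

lemma diff_mat {φ : ℂ → Mat r} {t : ℂ} (h : ∀ i j, DifferentiableAt ℂ (fun s => φ s i j) t) :
    DifferentiableAt ℂ φ t := by
  have e : φ = fun s => ∑ i, ∑ j, φ s i j • Matrix.single i j (1 : ℂ) := by
    funext s
    conv_lhs => rw [matrix_eq_sum_single (φ s)]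
    simp
  rw [e]
  exact DifferentiableAt.fun_sum fun i _ => DifferentiableAt.fun_sum fun j _ =>
    (h i j).smul_const _

lemma diff_entry {φ : ℂ → Mat r} {t : ℂ} (h : DifferentiableAt ℂ φ t) (i j : Fin r) :
    DifferentiableAt ℂ (fun s => φ s i j) t :=
  ((Surface.PF.entry i j |> Surface.PF.contDiff).differentiable one_ne_zero (φ t)).comp t h

lemma diff_det {φ : ℂ → Mat r} {t : ℂ} (h : DifferentiableAt ℂ φ t) :
    DifferentiableAt ℂ (fun s => (φ s).det) t :=
  (((PMap.det' (φ := fun X : Mat r => X) fun i j => Surface.PF.entry i j) |>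
    Surface.PF.contDiff).differentiable one_ne_zero (φ t)).comp t h

lemma diff_adj {φ : ℂ → Mat r} {t : ℂ} (h : DifferentiableAt ℂ φ t) :
    DifferentiableAt ℂ (fun s => (φ s).adjugate) t :=
  (((PMap.id' (T := Mat r)).adjugate.contDiff).differentiable one_ne_zero (φ t)).comp t h

/-- The Krylov matrix of a vector. -/
noncomputable def kry (A : Mat r) (v : Fin r → ℂ) : Mat r := .of fun i j => ((A ^ (j : ℕ)) *ᵥ v) i

lemma kry_col (Z A : Mat r) (v : Fin r → ℂ) (i j : Fin r) :
    (Z * kry A v) i j = (Z *ᵥ ((A ^ (j : ℕ)) *ᵥ v)) i := rfl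

lemma kry_smul (c : ℂ) (A : Mat r) (v : Fin r → ℂ) :
    kry (c • A) v = kry A v * diagonal (fun j : Fin r => c ^ (j : ℕ)) := by
  ext i j
  simp [kry, _root_.smul_pow, smul_mulVec, mul_diagonal, mul_comm]

lemma kry_conj {A b bi : Mat r} (hb : bi * b = 1) (v : Fin r → ℂ) :
    kry (b * A * bi) (b *ᵥ v) = b * kry A v := by
  ext i j
  rw [kry_col]
  have : ∀ k : ℕ, (b * A * bi) ^ k * b = b * A ^ k := by
    intro k
    induction k with
    | zero => simp
    | succ k ih =>
      calc (b * A * bi) ^ (k + 1) * b = (b * A * bi) ^ k * (b * A * (bi * b)) := by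
            rw [pow_succ]; simp only [mul_assoc]
        _ = ((b * A * bi) ^ k * b) * A := by rw [hb, mul_one]; simp only [mul_assoc]
        _ = b * A ^ (k + 1) := by rw [ih, pow_succ, mul_assoc]
  simp only [kry, of_apply, mulVec_mulVec, this]

/-- Two cyclic matrices with one characteristic polynomial are intertwined by Krylov matrices. -/
lemma kry_intertwine {A B : Mat r} {v v' : Fin r → ℂ} (hchar : B.charpoly = A.charpoly)
    (hK : (kry A v).det ≠ 0) :
    kry B v' * (kry A v)⁻¹ * A = B * (kry B v' * (kry A v)⁻¹) := by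
  set b := kry B v' * (kry A v)⁻¹ with hb
  have hu : IsUnit (kry A v).det := isUnit_iff_ne_zero.2 hK
  have hcol : ∀ k : ℕ, k < r → b *ᵥ ((A ^ k) *ᵥ v) = (B ^ k) *ᵥ v' := by
    intro k hk
    funext i
    have h := kry_col b A v i ⟨k, hk⟩
    rw [hb, mul_assoc, nonsing_inv_mul _ hu, mul_one] at h
    exact h.symm
  clear_value b
  clear hb
  have hr : b *ᵥ ((A ^ r) *ᵥ v) = (B ^ r) *ᵥ v' := by
    have hA := aeval_self_charpoly A
    have hB := aeval_self_charpoly B
    rw [aeval_eq_sum_range, charpoly_natDegree_eq_dim, Fintype.card_fin, Finset.sum_range_succ] at hA hB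
    have hm : ∀ X : Mat r, X.charpoly.coeff r = 1 := fun X => by
      have := charpoly_monic X
      rwa [Monic, leadingCoeff, charpoly_natDegree_eq_dim, Fintype.card_fin] at this
    rw [hm, one_smul] at hA hB
    rw [eq_neg_of_add_eq_zero_right hA, eq_neg_of_add_eq_zero_right hB, hchar]
    simp only [neg_mulVec, mulVec_neg, sum_mulVec, mulVec_sum, smul_mulVec, mulVec_smul]
    exact congrArg Neg.neg (Finset.sum_congr rfl fun k hk => by
      rw [hcol k (Finset.mem_range.1 hk)])
  have hall : b * A * kry A v = B * b * kry A v := by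
    ext i j
    rw [kry_col, kry_col, ← mulVec_mulVec, ← mulVec_mulVec, hcol _ j.isLt, mulVec_mulVec _ A,
      ← pow_succ']
    rw [mulVec_mulVec _ B, ← pow_succ']
    rcases Nat.lt_or_ge ((j : ℕ) + 1) r with h | h
    · rw [hcol _ h]
    · rw [show (j : ℕ) + 1 = r by omega, hr]
  have := congrArg (fun X => X * (kry A v)⁻¹) hall
  simpa only [mul_assoc, mul_nonsing_inv _ hu, mul_one] using this

lemma kry_eigen {A V Vi : Mat r} {l : Fin r → ℂ} (hV : Vi * V = 1) (hA : A = V * diagonal l * Vi)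
    (hl : Function.Injective l) : (kry A (V *ᵥ fun _ => 1)).det ≠ 0 := by
  have e : kry A (V *ᵥ fun _ => 1) = V * vandermonde l := by
    rw [hA, kry_conj hV]
    congr 1
    ext i j
    simp [kry, diagonal_pow, mulVec_diagonal, vandermonde_apply]
  rw [e, det_mul]
  refine mul_ne_zero (fun h => ?_) (det_vandermonde_ne_zero_iff.2 hl)
  have := congrArg Matrix.det hV
  simp [det_mul, h] at this

end Vale.Agent.P002.Global
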