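import Vale.Agent.P002.Global.Criterion
import Vale.Agent.P002.Global.Zeros

/-! Vanishing propagates along the chart given by the linear closing equation of a handle. -/

open Matrix Filter Topology Polynomial

namespace Vale.Agent.P002.Global

open Vale.Agent.P002.Surface (Mat PF PMap)

attribute [local instance] Matrix.linftyOpNormedAddCommGroup Matrix.linftyOpNormedSpace
  Matrix.linftyOpNormedRing Matrix.linftyOpNormedAlgebra

variable {r : ℕ}

lemma adj_adj {A : Mat r} (h : A.det = 1) : A.adjugate.adjugate = A :=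
  left_inv_eq_right_inv (Surface.adj_mul (by rw [det_adjugate, h, one_pow]))
    (Surface.adj_mul h)

/-- The handle `(a, b)` closes `M`. -/
def Closes (M a b : Mat r) : Prop :=
  a.det = 1 ∧ b.det = 1 ∧ a.adjugate * M = b * a.adjugate * b.adjugate

/-- Endpoint data of the chart. -/
lemma endpoint (hr : 0 < r) {M a b : Mat r} (hM : M.det = 1) (h : Closes M a b)
    (hs : Simple a.adjugate b) :
    ∃ u v : Fin r → ℂ, (sys a.adjugate M u).det ≠ 0 ∧ rhs a.adjugate M = 0 ∧
      (kry a.adjugate v).det ≠ 0 ∧ kry (a.adjugate * M) (b *ᵥ v) = b * kry a.adjugate v := by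
  obtain ⟨V, Vi, l, hV, hA, hl, hl0, hc⟩ := hs
  obtain ⟨ha, hb, hAM⟩ := h
  have hb' : b.adjugate * b = 1 := Surface.adj_mul hb
  obtain ⟨u, hu⟩ := exists_good_vec hr hV hb' hA hl hl0 hM hAM hc
  refine ⟨u, V *ᵥ fun _ => 1, hu, ?_, kry_eigen hV hA hl, by rw [hAM, kry_conj hb']⟩
  have h1 := (sys_iff a.adjugate M u 0).2 ?_
  · simpa using h1.symm
  intro k
  simp only [vecMulVec_zero, add_zero]
  split_ifs with hk
  · have e := det_eq_sign_charpoly_coeff a.adjugate
    rw [det_adjugate, ha, one_pow, Fintype.card_fin] at e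
    rw [sgn]
    refine (isUnit_one.neg.pow r).mul_left_cancel ?_
    rw [← e, ← mul_pow]
    simp
  · rw [hAM, charpoly_conj hb']

variable {Y : Type*} [NormedAddCommGroup Y] [NormedSpace ℂ Y]

/-- Propagation of vanishing along a curve of tails. -/
lemma chart_propagate (hr : 0 < r) {M : ℂ → Mat r} {y : ℂ → Y} (hM : Differentiable ℂ M)
    (hMd : ∀ t, (M t).det = 1) (hy : Differentiable ℂ y) {a₀ b₀ a₁ b₁ : Mat r}
    (h₀ : Closes (M 0) a₀ b₀) (h₁ : Closes (M 1) a₁ b₁)
    (hs₀ : Simple a₀.adjugate b₀) (hs₁ : Simple a₁.adjugate b₁)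
    {f : Mat r × Mat r × Y → ℂ} (hf : f ∈ PF (Mat r × Mat r × Y))
    (hvan : ∀ᶠ q : ℂ × Mat r × Mat r in 𝓝 (0, a₀, b₀),
      Closes (M q.1) q.2.1 q.2.2 → f (q.2.1, q.2.2, y q.1) = 0) :
    ∃ ζ : ℂ, ζ ^ r = 1 ∧ f (a₁, ζ • b₁, y 1) = 0 := by
  classical
  have hd₀ : a₀.adjugate.det = 1 := by rw [det_adjugate, h₀.1, one_pow]
  have hd₁ : a₁.adjugate.det = 1 := by rw [det_adjugate, h₁.1, one_pow]
  obtain ⟨u₀, v₀, hu₀, he₀, hK₀, hK₀'⟩ := endpoint hr (hMd 0) h₀ hs₀
  obtain ⟨u₁, v₁, hu₁, he₁, hK₁, hK₁'⟩ := endpoint hr (hMd 1) h₁ hs₁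
  let A : ℂ → Mat r := fun t => (1 - t) • a₀.adjugate + t • a₁.adjugate
  let u : ℂ → Fin r → ℂ := fun t => (1 - t) • u₀ + t • u₁
  let v : ℂ → Fin r → ℂ := fun t => (1 - t) • v₀ + t • v₁
  let v' : ℂ → Fin r → ℂ := fun t => (1 - t) • (b₀ *ᵥ v₀) + t • (b₁ *ᵥ v₁)
  have hA : Differentiable ℂ A := by fun_prop
  have hAe : ∀ i j, Differentiable ℂ fun t => A t i j := fun i j t => diff_entry (hA t) i j
  have hMe : ∀ i j, Differentiable ℂ fun t => M t i j := fun i j t => diff_entry (hM t) i j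
  have hue : ∀ i, Differentiable ℂ fun t => u t i := fun i => by simp only [u]; fun_prop
  let Al : Matrix (Fin r) (Fin r) Ent := .of fun i j => ⟨_, hAe i j⟩
  let Ml : Matrix (Fin r) (Fin r) Ent := .of fun i j => ⟨_, hMe i j⟩
  let ul : Fin r → Ent := fun i => ⟨_, hue i⟩
  let S : ℂ → Mat r := fun t => sys (A t) (M t) (u t)
  let e : ℂ → Fin r → ℂ := fun t => rhs (A t) (M t)
  have hS : ∀ t, DifferentiableAt ℂ S t := fun t => diff_mat fun i j => by
    have h : (fun s => S s i j) = ((sys Al Ml ul i j : Ent) : ℂ → ℂ) := by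
      funext s
      have := congrArg (fun X : Mat r => X i j) (sys_map (evEnt s) Al Ml ul)
      exact this
    rw [h]; exact (sys Al Ml ul i j).2 t
  have he : ∀ i, Differentiable ℂ fun t => e t i := fun i => by
    have h : (fun s => e s i) = ((rhs Al Ml i : Ent) : ℂ → ℂ) := by
      funext s
      exact rhs_map (evEnt s) Al Ml i
    rw [h]; exact (rhs Al Ml i).2
  let N : ℂ → Fin r → ℂ := fun t => (S t).adjugate *ᵥ e t
  let D : ℂ → ℂ := fun t => (S t).det
  let At : ℂ → Mat r := fun t => D t • A t + vecMulVec (u t) (N t)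
  have hD : Differentiable ℂ D := fun t => diff_det (hS t)
  have hN : ∀ i, Differentiable ℂ fun t => N t i := fun i t => by
    simp only [N, mulVec, dotProduct]
    exact DifferentiableAt.fun_sum fun j _ => (diff_entry (diff_adj (hS t)) i j).mul (he j t)
  have hAt : Differentiable ℂ At := fun t => ((hD t).smul (hA t)).add (diff_mat fun i j => by
    simp only [vecMulVec_apply]; exact (hue i t).mul (hN j t))
  have hv : ∀ i, Differentiable ℂ fun t => v t i := fun i => by simp only [v]; fun_prop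
  have hv' : ∀ i, Differentiable ℂ fun t => v' t i := fun i => by simp only [v']; fun_prop
  have hkry : ∀ (X : ℂ → Mat r) (w : ℂ → Fin r → ℂ) (t : ℂ), DifferentiableAt ℂ X t →
      (∀ i, DifferentiableAt ℂ (fun s => w s i) t) →
      DifferentiableAt ℂ (fun s => kry (X s) (w s)) t := by
    intro X w t hX hw
    refine diff_mat fun i j => ?_
    simp only [kry, of_apply, mulVec, dotProduct]
    exact DifferentiableAt.fun_sum fun k _ => (diff_entry (hX.pow _) i k).mul (hw k)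
  let K : ℂ → Mat r := fun t => kry (At t) (v t)
  let K' : ℂ → Mat r := fun t => kry (At t * M t) (v' t)
  have hK : Differentiable ℂ K := fun t => hkry _ _ t (hAt t) fun i => hv i t
  have hK' : Differentiable ℂ K' := fun t => hkry _ _ t ((hAt t).mul (hM t)) fun i => hv' i t
  have hA0 : A 0 = a₀.adjugate := by simp [A]
  have hA1 : A 1 = a₁.adjugate := by simp [A]
  have hu0 : u 0 = u₀ := by simp [u]
  have hu1 : u 1 = u₁ := by simp [u]
  have hD0 : D 0 ≠ 0 := by simp only [D, S, hA0, hu0]; exact hu₀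
  have hD1 : D 1 ≠ 0 := by simp only [D, S, hA1, hu1]; exact hu₁
  have hAt0 : At 0 = D 0 • a₀.adjugate := by simp [At, N, e, hA0, he₀]
  have hAt1 : At 1 = D 1 • a₁.adjugate := by simp [At, N, e, hA1, he₁]
  have hpow : ∀ c : ℂ, c ≠ 0 → (diagonal fun j : Fin r => c ^ (j : ℕ)).det ≠ 0 := fun c hc => by
    rw [det_diagonal]; exact Finset.prod_ne_zero_iff.2 fun j _ => pow_ne_zero _ hc
  have hK0 : (K 0).det ≠ 0 := by
    simp only [K, hAt0, v, kry_smul, det_mul, sub_zero, one_smul, zero_smul, add_zero]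
    exact mul_ne_zero hK₀ (hpow _ hD0)
  have hK0' : (K' 0).det ≠ 0 := by
    simp only [K', hAt0, v', smul_mul_assoc, kry_smul, sub_zero, one_smul, zero_smul, add_zero,
      hK₀', det_mul, h₀.2.1, one_mul]
    exact mul_ne_zero hK₀ (hpow _ hD0)
  have hK1 : (K 1).det ≠ 0 := by
    simp only [K, hAt1, v, kry_smul, det_mul, sub_self, one_smul, zero_smul, zero_add]
    exact mul_ne_zero hK₁ (hpow _ hD1)
  have hK1' : (K' 1).det ≠ 0 := by
    simp only [K', hAt1, v', smul_mul_assoc, kry_smul, sub_self, one_smul, zero_smul, zero_add,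
      hK₁', det_mul, h₁.2.1, one_mul]
    exact mul_ne_zero hK₁ (hpow _ hD1)
  let Ω : Set ℂ := {t | D t ≠ 0 ∧ (K t).det ≠ 0 ∧ (K' t).det ≠ 0}
  have hΩo : IsOpen Ω :=
    (isOpen_ne_fun hD.continuous continuous_const).inter
      ((isOpen_ne_fun (continuous_iff_continuousAt.2 fun t => (diff_det (hK t)).continuousAt)
        continuous_const).inter
      (isOpen_ne_fun (continuous_iff_continuousAt.2 fun t => (diff_det (hK' t)).continuousAt)
        continuous_const))
  have hΩc : Ωᶜ.Countable := by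
    have : Ωᶜ ⊆ {t | D t = 0} ∪ {t | (K t).det = 0} ∪ {t | (K' t).det = 0} := by
      intro t ht
      simp only [Ω, Set.mem_compl_iff, Set.mem_setOf_eq, not_and_or, not_not] at ht
      rcases ht with h | h | h
      exacts [Or.inl (Or.inl h), Or.inl (Or.inr h), Or.inr h]
    exact (((countable_zeros hD hD0).union (countable_zeros (fun t => diff_det (hK t)) hK0)).union
      (countable_zeros (fun t => diff_det (hK' t)) hK0')).mono this
  have hΩp : IsPreconnected Ω := by
    have := (hΩc.isPathConnected_compl_of_one_lt_rank (by simp [Complex.rank_real_complex]))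
    rw [compl_compl] at this
    exact this.isConnected.isPreconnected
  -- the handle over the curve
  let At' : ℂ → Mat r := fun t => (D t)⁻¹ • At t
  let a : ℂ → Mat r := fun t => (At' t).adjugate
  let b : ℂ → Mat r := fun t => (K t).det⁻¹ • (K' t * (K t).adjugate)
  have hb : ∀ t, (K t).det ≠ 0 → b t = K' t * (K t)⁻¹ := fun t ht => by
    simp [b, inv_def, Ring.inverse_eq_inv']
  have hbd : ∀ t, (K t).det ≠ 0 → (b t).det = (K' t).det / (K t).det := fun t ht => by
    rw [hb t ht, det_mul, det_nonsing_inv, Ring.inverse_eq_inv', div_eq_mul_inv]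
  have hcore : ∀ t ∈ Ω, (At' t).det = 1 ∧ b t * At' t = At' t * M t * b t := by
    rintro t ⟨hDt, hKt, -⟩
    have hw : sys (A t) (M t) (u t) *ᵥ ((D t)⁻¹ • N t) = rhs (A t) (M t) := by
      rw [mulVec_smul]
      simp only [N, mulVec_mulVec]
      rw [mul_adjugate, smul_mulVec, one_mulVec, smul_smul, inv_mul_cancel₀ hDt, one_smul]
    obtain ⟨hd, hchar⟩ := solution_spec hr (hMd t) hw
    have hAt' : A t + vecMulVec (u t) ((D t)⁻¹ • N t) = At' t := by
      simp [At', At, vecMulVec_smul, smul_smul, inv_mul_cancel₀ hDt]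
    rw [hAt'] at hd hchar
    refine ⟨hd, ?_⟩
    have hAtD : At t = D t • At' t := by simp [At', smul_smul, mul_inv_cancel₀ hDt]
    have hu : IsUnit (kry (At' t) (v t)).det := by
      have : (K t).det ≠ 0 := hKt
      simp only [K, hAtD, kry_smul, det_mul] at this
      exact isUnit_iff_ne_zero.2 (mul_ne_zero_iff.1 this).1
    have hd : IsUnit (diagonal fun j : Fin r => D t ^ (j : ℕ)).det :=
      isUnit_iff_ne_zero.2 (hpow _ hDt)
    have hbk : b t = kry (At' t * M t) (v' t) * (kry (At' t) (v t))⁻¹ := by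
      rw [hb t hKt]
      simp only [K, K', hAtD, smul_mul_assoc, kry_smul]
      rw [Matrix.mul_inv_rev, mul_assoc, ← mul_assoc (diagonal _), mul_nonsing_inv _ hd, one_mul]
    rw [hbk]
    exact kry_intertwine hchar hu.ne_zero
  let δ : ℂ → ℂ := fun t => (b t).det
  have hδ : ∀ t ∈ Ω, δ t ≠ 0 := fun t ht => by
    simp only [δ]; rw [hbd t ht.2.1]; exact div_ne_zero ht.2.2 ht.2.1
  have hbdiff : ∀ t ∈ Ω, DifferentiableAt ℂ b t := fun t ht =>
    ((diff_det (hK t)).inv ht.2.1).smul ((hK' t).mul (diff_adj (hK t)))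
  have hadiff : ∀ t ∈ Ω, DifferentiableAt ℂ a t := fun t ht =>
    diff_adj (((hD t).inv ht.1).smul (hAt t))
  have hcl : ∀ t ∈ Ω, ∀ z : ℂ, z ^ r * δ t = 1 → Closes (M t) (a t) (z • b t) := by
    intro t ht z hz
    obtain ⟨hd, hi⟩ := hcore t ht
    have hdet : (z • b t).det = 1 := by rw [det_smul, Fintype.card_fin]; exact hz
    refine ⟨by simp only [a, det_adjugate, hd, one_pow], hdet, ?_⟩
    have haa : (a t).adjugate = At' t := adj_adj hd
    rw [haa]
    calc At' t * M t = At' t * M t * ((z • b t) * (z • b t).adjugate) := by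
          rw [Surface.mul_adj hdet, mul_one]
      _ = (z • (At' t * M t * b t)) * (z • b t).adjugate := by
          rw [← mul_assoc, mul_smul_comm]
      _ = (z • b t) * At' t * (z • b t).adjugate := by rw [← hi, ← smul_mul_assoc z]
  let ρ : ℂ → ℂ := fun t => Complex.exp (-Complex.log (δ t) / r)
  have hrC : (r : ℂ) ≠ 0 := Nat.cast_ne_zero.2 hr.ne'
  have hρ : ∀ t ∈ Ω, ρ t ^ r * δ t = 1 := fun t ht => by
    simp only [ρ]
    rw [← Complex.exp_nat_mul, mul_div_cancel₀ _ hrC, Complex.exp_neg, Complex.exp_log (hδ t ht),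
      inv_mul_cancel₀ (hδ t ht)]
  let μ : Finset ℂ := nthRootsFinset r (1 : ℂ)
  let G : ℂ → ℂ := fun t => ∏ ζ ∈ μ, f (a t, (ρ t * ζ) • b t, y t)
  have hG : DifferentiableOn ℂ G Ω := by
    intro t₁ ht₁
    refine DifferentiableAt.differentiableWithinAt ?_
    let ρ₁ : ℂ → ℂ := fun t => ρ t₁ * Complex.exp (-Complex.log (δ t / δ t₁) / r)
    have hδd : DifferentiableAt ℂ δ t₁ := diff_det (hbdiff t₁ ht₁)
    have hρ₁ : DifferentiableAt ℂ ρ₁ t₁ := by
      refine ((((hδd.div_const _).clog ?_).neg).div_const _).cexp.const_mul _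
      rw [div_self (hδ t₁ ht₁)]; exact Complex.one_mem_slitPlane
    have hval : DifferentiableAt ℂ
        (fun t => ∏ ζ ∈ μ, f (a t, (ρ₁ t * ζ) • b t, y t)) t₁ := by
      refine DifferentiableAt.fun_finsetProd fun ζ _ => ?_
      exact ((PF.contDiff hf).differentiable one_ne_zero _).comp t₁
        ((hadiff t₁ ht₁).prodMk (((hρ₁.mul_const ζ).smul (hbdiff t₁ ht₁)).prodMk (hy t₁)))
    refine hval.congr_of_eventuallyEq ?_
    filter_upwards [hΩo.mem_nhds ht₁] with t ht
    simp only [G]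
    have hρ₁r : ρ₁ t ^ r * δ t = 1 := by
      show (ρ t₁ * Complex.exp (-Complex.log (δ t / δ t₁) / r)) ^ r * δ t = 1
      have h1 := hρ t₁ ht₁
      generalize ρ t₁ = c at h1 ⊢
      rw [mul_pow, ← Complex.exp_nat_mul, mul_div_cancel₀ _ hrC, Complex.exp_neg,
        Complex.exp_log (div_ne_zero (hδ t ht) (hδ t₁ ht₁)), inv_div]
      field_simp [hδ t ht]
      linear_combination h1
    have hne : ρ₁ t ≠ 0 := fun h => by simp [h, hr.ne'] at hρ₁r
    have hne' : ρ t ≠ 0 := Complex.exp_ne_zero _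
    have hq : (ρ t / ρ₁ t) ^ r = 1 := by
      rw [div_pow, div_eq_one_iff_eq (pow_ne_zero _ hne)]
      exact mul_right_cancel₀ (hδ t ht) ((hρ t ht).trans hρ₁r.symm)
    refine Finset.prod_bij (fun ζ _ => ρ t / ρ₁ t * ζ) (fun ζ hζ => ?_) (fun x _ x' _ h => ?_)
      (fun x hx => ?_) (fun ζ _ => ?_)
    · simp only [μ, mem_nthRootsFinset hr] at hζ ⊢
      rw [mul_pow, hq, hζ, one_mul]
    · exact mul_left_cancel₀ (div_ne_zero hne' hne) h
    · refine ⟨ρ₁ t / ρ t * x, ?_, by field_simp⟩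
      simp only [μ, mem_nthRootsFinset hr] at hx ⊢
      rw [mul_pow, ← inv_div, inv_pow, hq, inv_one, hx, one_mul]
    · rw [← mul_assoc, mul_div_cancel₀ _ hne]
  have hb0 : b 0 = b₀ := by
    have hd : IsUnit (diagonal fun j : Fin r => D 0 ^ (j : ℕ)).det :=
      isUnit_iff_ne_zero.2 (hpow _ hD0)
    rw [hb 0 hK0]
    simp only [K, K', hAt0, v, v', smul_mul_assoc, kry_smul, sub_zero, one_smul, zero_smul,
      add_zero, hK₀']
    rw [Matrix.mul_inv_rev, mul_assoc, ← mul_assoc (diagonal _), mul_nonsing_inv _ hd, one_mul,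
      mul_assoc, mul_nonsing_inv _ (isUnit_iff_ne_zero.2 hK₀), mul_one]
  have hb1 : b 1 = b₁ := by
    have hd : IsUnit (diagonal fun j : Fin r => D 1 ^ (j : ℕ)).det :=
      isUnit_iff_ne_zero.2 (hpow _ hD1)
    rw [hb 1 hK1]
    simp only [K, K', hAt1, v, v', smul_mul_assoc, kry_smul, sub_self, one_smul, zero_smul,
      zero_add, hK₁']
    rw [Matrix.mul_inv_rev, mul_assoc, ← mul_assoc (diagonal _), mul_nonsing_inv _ hd, one_mul,
      mul_assoc, mul_nonsing_inv _ (isUnit_iff_ne_zero.2 hK₁), mul_one]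
  have ha0 : a 0 = a₀ := by
    simp only [a, At', hAt0, smul_smul, inv_mul_cancel₀ hD0, one_smul]
    exact adj_adj h₀.1
  have ha1 : a 1 = a₁ := by
    simp only [a, At', hAt1, smul_smul, inv_mul_cancel₀ hD1, one_smul]
    exact adj_adj h₁.1
  have h0Ω : (0 : ℂ) ∈ Ω := ⟨hD0, hK0, hK0'⟩
  have hG0 : ∀ᶠ t in 𝓝 (0 : ℂ), G t = 0 := by
    have hδ0 : δ 0 = 1 := by simp only [δ, hb0, h₀.2.1]
    have hρc : ContinuousAt ρ 0 :=
      (((((diff_det (hbdiff 0 h0Ω)).clog (show δ 0 ∈ Complex.slitPlane by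
        rw [hδ0]; exact Complex.one_mem_slitPlane)).neg).div_const _).cexp).continuousAt
    have hρ0 : ρ 0 = 1 := by simp [ρ, hδ0]
    have hc : ContinuousAt (fun t => (t, a t, (ρ t * 1) • b t)) 0 :=
      continuousAt_id.prodMk ((hadiff 0 h0Ω).continuousAt.prodMk
        ((hρc.mul continuousAt_const).smul (hbdiff 0 h0Ω).continuousAt))
    have h1 := hc.eventually (show ∀ᶠ q in 𝓝 ((0 : ℂ), a 0, (ρ 0 * 1) • b 0), _ by
      rw [ha0, hb0, hρ0, one_mul, one_smul]; exact hvan)
    filter_upwards [h1, hΩo.mem_nhds h0Ω] with t ht htΩ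
    exact Finset.prod_eq_zero ((mem_nthRootsFinset hr _).2 (one_pow r))
      (ht (hcl t htΩ _ (by rw [mul_one, hρ t htΩ])))
  have hρ1 : ρ 1 = 1 := by simp [ρ, δ, hb1, h₁.2.1]
  have h1Ω : (1 : ℂ) ∈ Ω := ⟨hD1, hK1, hK1'⟩
  have h := (hG.analyticOnNhd hΩo).eqOn_zero_of_preconnected_of_eventuallyEq_zero hΩp h0Ω hG0 h1Ω
  obtain ⟨ζ, hζ, hz⟩ := Finset.prod_eq_zero_iff.1 h
  exact ⟨ζ, (mem_nthRootsFinset hr _).1 hζ, by rwa [hρ1, one_mul, ha1, hb1] at hz⟩

end Vale.Agent.P002.Global
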