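import Vale.Agent.P002.Global.Main
import Vale.Agent.P002.Surface.Open
import Vale.Agent.P002.Surface.Span

/-! Without punctures the seed is defined over the rational numbers. -/

open Matrix

namespace Vale.Agent.P002.Global

open Vale.Agent.P002.Surface (Mat Tup PF PMap)

attribute [local instance] Matrix.linftyOpNormedAddCommGroup Matrix.linftyOpNormedSpace
  Matrix.linftyOpNormedRing Matrix.linftyOpNormedAlgebra

/-- The seed of a closed surface has the rational field. -/
theorem seed_closed (g r : ℕ) (J : Fin 0 → Mat r) (hr : 2 ≤ r) : Seed g r 0 J := by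
  intro hg
  obtain ⟨n, rfl⟩ : ∃ n, g = n + 2 := ⟨g - 2, by omega⟩
  obtain ⟨ω, A, B, hW, hsp⟩ := Surface.exists_weyl hr
  obtain ⟨U, hUo, hpU, hUcl, hprime⟩ := Surface.open_of_span (h := n) hW fun Y hY =>
    Surface.tan_in_span hr hW hsp Y hY
  let ι : Tup (n + 2) r → Tup (n + 2) r × (Fin 0 → Mat r) := fun x => (x, fun i => i.elim0)
  have hι : PMap ι := PMap.id'.prodMk (PMap.const _)
  have hback : ∀ x : Tup (n + 2) r × (Fin 0 → Mat r), ι x.1 = x := fun x =>
    Prod.ext rfl (Subsingleton.elim _ _)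
  have hto : ∀ x : Tup (n + 2) r, x ∈ Surface.Hom (n + 2) r ↔ ι x ∈ HomC J := by
    intro x
    simp [ι, HomC, Surface.Hom]
  refine ⟨⊥, ⟨inferInstance, fun _ => rfl⟩, ι (Surface.Mir n A B),
    (hto _).1 (Surface.Mir_mem_hom hW.2.1 hW.2.2.1), ?_, Prod.fst ⁻¹' U,
    hUo.preimage continuous_fst, hpU, ?_, ?_⟩
  · show Algebra.adjoin ℂ _ = ⊤
    rw [eq_top_iff]
    intro M _
    have hM : M ∈ Submodule.span ℂ
        (Set.range fun q : Fin r × Fin r => A ^ (q.1 : ℕ) * B ^ (q.2 : ℕ)) := by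
      rw [hsp]; exact Submodule.mem_top
    refine (Submodule.span_le (p := Subalgebra.toSubmodule (Algebra.adjoin ℂ _))).2 ?_ hM
    rintro _ ⟨q, rfl⟩
    rw [SetLike.mem_coe, Subalgebra.mem_toSubmodule]
    refine mul_mem (pow_mem (Algebra.subset_adjoin ?_) _) (pow_mem (Algebra.subset_adjoin ?_) _)
    · exact Or.inl rfl
    · exact Or.inr rfl
  · rintro x ⟨hxU, hxH⟩ f hf
    rw [← hback x] at hxH ⊢
    refine hUcl ⟨hxU, (hto _).2 hxH⟩ (fun y => MvPolynomial.eval (entries (ι y)) f)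
      (PF.comp (pf_eval f) hι) fun y hy hi => hf _ ((hto _).1 hy) ?_
    rintro (⟨i, b, a, c⟩ | ⟨i, -⟩)
    · have key : ∀ M : Mat r, Surface.IntMat M →
          M a c ∈ (⊥ : IntermediateField ℚ ℂ) ∧ IsIntegral ℤ (M a c) := by
        rintro M ⟨N, rfl⟩
        exact ⟨intCast_mem _ _, isIntegral_algebraMap⟩
      cases b
      · exact key _ (hi i).1
      · exact key _ (hi i).2
    · exact i.elim0
  · intro U' hU'o hpU' f₁ f₂ h12
    have h := hprime (ι ⁻¹' U') (hU'o.preimage hι.contDiff.continuous) hpU' _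
      (PF.comp (pf_eval f₁) hι) _ (PF.comp (pf_eval f₂) hι)
      fun x hx => by simpa using h12 (ι x) ⟨hx.1, (hto _).1 hx.2⟩
    rcases h with h | h
    · exact Or.inl fun x hx => by
        rw [← hback x] at hx ⊢
        exact h x.1 ⟨hx.1, (hto _).2 hx.2⟩
    · exact Or.inr fun x hx => by
        rw [← hback x] at hx ⊢
        exact h x.1 ⟨hx.1, (hto _).2 hx.2⟩

end Vale.Agent.P002.Global
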