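import Mathlib

/-! Rank-one perturbations make the closing equation of a handle linear. -/

open Matrix Polynomial

namespace Vale.Agent.P002.Global

variable {R : Type*} [CommRing R] {r : ℕ}

lemma det_sub_vecMulVec (B : Matrix (Fin r) (Fin r) R) (u w : Fin r → R)
    (hB : IsRegular B.det) :
    (B - vecMulVec u w).det = B.det - w ⬝ᵥ (B.adjugate *ᵥ u) := by
  rcases r with _ | r
  · simp [dotProduct]
  have h : B.adjugate * (B - vecMulVec u w) = scalar (Fin (r + 1)) B.det - vecMulVec (B.adjugate *ᵥ u) w := by
    rw [mul_sub, adjugate_mul, mul_vecMulVec, scalar_apply, smul_one_eq_diagonal]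
  have h2 := congrArg Matrix.det h
  rw [det_mul, det_adjugate, ← eval_charpoly, charpoly_vecMulVec] at h2
  simp only [Fintype.card_fin, eval_sub, eval_pow, eval_X, eval_smul, smul_eq_mul,
    Nat.add_sub_cancel, pow_succ, eval_mul] at h2
  rw [dotProduct_comm w]
  refine (hB.pow r).left ?_
  linear_combination h2

/-- The coefficient vector of the effect of `u` on the characteristic polynomial of `A`. -/
noncomputable def slope (A : Matrix (Fin r) (Fin r) R) (u : Fin r → R) : Fin r → R[X] :=
  (charmatrix A).adjugate *ᵥ (fun i => C (u i))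

lemma charpoly_add_vecMulVec (A : Matrix (Fin r) (Fin r) R) (u w : Fin r → R) :
    (A + vecMulVec u w).charpoly = A.charpoly - ∑ i, C (w i) * slope A u i := by
  have e : charmatrix (A + vecMulVec u w) =
      charmatrix A - vecMulVec (fun i => C (u i)) (fun i => C (w i)) := by
    ext i j
    simp [charmatrix, vecMulVec_apply]
    ring
  rw [charpoly, e, det_sub_vecMulVec _ _ _ (charpoly_monic A).isRegular]
  rfl

lemma mul_vecMulVec_slope (A M : Matrix (Fin r) (Fin r) R) (u w : Fin r → R) :
    ((A + vecMulVec u w) * M).charpoly =
      (A * M).charpoly - ∑ i, C (∑ j, w j * M j i) * slope (A * M) u i := by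
  rw [add_mul, vecMulVec_mul, charpoly_add_vecMulVec]
  rfl

/-- The unit scalar `(-1)^r`. -/
def sgn (R : Type*) [CommRing R] (r : ℕ) : R := (-1) ^ r

/-- The matrix of the closing equation: row `0` is the determinant, row `k` the `k`-th coefficient
of the difference of the two characteristic polynomials. -/
noncomputable def sys (A M : Matrix (Fin r) (Fin r) R) (u : Fin r → R) : Matrix (Fin r) (Fin r) R :=
  .of fun k i => if (k : ℕ) = 0 then (slope A u i).coeff 0
    else (slope A u i).coeff k - ∑ j, M i j * (slope (A * M) u j).coeff k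

/-- The right-hand side of the closing equation. -/
noncomputable def rhs (A M : Matrix (Fin r) (Fin r) R) : Fin r → R :=
  fun k => if (k : ℕ) = 0 then A.charpoly.coeff 0 - sgn R r
    else A.charpoly.coeff k - (A * M).charpoly.coeff k

lemma sys_iff (A M : Matrix (Fin r) (Fin r) R) (u w : Fin r → R) :
    sys A M u *ᵥ w = rhs A M ↔
      ∀ k : Fin r, if (k : ℕ) = 0 then (A + vecMulVec u w).charpoly.coeff 0 = sgn R r
        else (A + vecMulVec u w).charpoly.coeff k =
          ((A + vecMulVec u w) * M).charpoly.coeff k := by
  rw [funext_iff]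
  refine forall_congr' fun k => ?_
  rw [charpoly_add_vecMulVec, mul_vecMulVec_slope]
  simp only [sys, rhs, mulVec, dotProduct, of_apply, coeff_sub, finsetSum_coeff, coeff_C_mul]
  by_cases hk : (k : ℕ) = 0
  · simp only [hk, if_true]
    have : ∑ i, (slope A u i).coeff 0 * w i = ∑ i, w i * (slope A u i).coeff 0 :=
      Finset.sum_congr rfl fun _ _ => mul_comm _ _
    rw [this]
    constructor <;> intro h
    · linear_combination -h
    · linear_combination -h
  · simp only [hk, if_false]
    have : ∑ i, ((slope A u i).coeff k - ∑ j, M i j * (slope (A * M) u j).coeff k) * w i =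
        ∑ i, w i * (slope A u i).coeff k -
          ∑ i, (∑ j, w j * M j i) * (slope (A * M) u i).coeff k := by
      simp only [sub_mul, Finset.sum_sub_distrib, Finset.sum_mul]
      congr 1
      · exact Finset.sum_congr rfl fun _ _ => mul_comm _ _
      · rw [Finset.sum_comm]
        exact Finset.sum_congr rfl fun _ _ => Finset.sum_congr rfl fun _ _ => by ring
    rw [this]
    constructor <;> intro h
    · linear_combination -h
    · linear_combination -h

/-- A solution has determinant one and the same characteristic polynomial after multiplication. -/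
lemma solution_spec [Nontrivial R] (hr : 0 < r) {A M : Matrix (Fin r) (Fin r) R} {u w : Fin r → R}
    (hM : M.det = 1) (h : sys A M u *ᵥ w = rhs A M) :
    (A + vecMulVec u w).det = 1 ∧
      ((A + vecMulVec u w) * M).charpoly = (A + vecMulVec u w).charpoly := by
  rw [sys_iff] at h
  have hdet : (A + vecMulVec u w).det = 1 := by
    have := h ⟨0, hr⟩
    simp only [if_true] at this
    rw [det_eq_sign_charpoly_coeff, this, Fintype.card_fin, sgn, ← mul_pow]
    simp
  refine ⟨hdet, Polynomial.ext fun k => ?_⟩
  rcases lt_trichotomy k r with hk | hk | hk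
  · rcases Nat.eq_zero_or_pos k with rfl | hk0
    · have h1 := det_eq_sign_charpoly_coeff ((A + vecMulVec u w) * M)
      have h2 := det_eq_sign_charpoly_coeff (A + vecMulVec u w)
      rw [det_mul, hM, mul_one, h2] at h1
      exact ((isUnit_one.neg.pow _).mul_left_cancel h1).symm
    · have := h ⟨k, hk⟩
      simp only [hk0.ne', if_false] at this
      exact this.symm
  · have e : ∀ B : Matrix (Fin r) (Fin r) R, B.charpoly.coeff k = 1 := fun B => by
      have := charpoly_monic B
      rw [Monic, leadingCoeff, charpoly_natDegree_eq_dim, Fintype.card_fin] at this; rw [hk]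
      exact this
    rw [e, e]
  · have e : ∀ B : Matrix (Fin r) (Fin r) R, B.charpoly.coeff k = 0 := fun B =>
      coeff_eq_zero_of_natDegree_lt (by rw [charpoly_natDegree_eq_dim, Fintype.card_fin]; exact hk)
    rw [e, e]

section map

variable {S : Type*} [CommRing S] (f : R →+* S)

lemma slope_map (A : Matrix (Fin r) (Fin r) R) (u : Fin r → R) (i : Fin r) :
    slope (A.map f) (fun i => f (u i)) i = (slope A u i).map f := by
  have h : (slope A u i).map f =
      ((charmatrix A).adjugate.map (Polynomial.map f) *ᵥ fun i => C (f (u i))) i := by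
    simp [slope, mulVec, dotProduct, Polynomial.map_sum]
  rw [h, slope, charmatrix_map, ← Polynomial.coe_mapRingHom]
  congr 2
  exact ((Polynomial.mapRingHom f).map_adjugate (charmatrix A)).symm

lemma sys_map (A M : Matrix (Fin r) (Fin r) R) (u : Fin r → R) :
    sys (A.map f) (M.map f) (fun i => f (u i)) = (sys A M u).map f := by
  ext k i
  simp only [sys, of_apply, map_apply, ← Matrix.map_mul, slope_map, coeff_map]
  split_ifs <;> simp

lemma rhs_map (A M : Matrix (Fin r) (Fin r) R) (k : Fin r) :
    rhs (A.map f) (M.map f) k = f (rhs A M k) := by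
  simp only [rhs, ← Matrix.map_mul, charpoly_map, coeff_map, sgn]
  split_ifs <;> simp

end map

end Vale.Agent.P002.Global
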