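import Vale.Agent.P002.Global.Defs
import Vale.Agent.P002.Global.Linear

/-! The closing equation is nonsingular at a pair with simple spectrum and no common invariant
coordinate subspace. -/

open Matrix Polynomial Filter Topology

namespace Vale.Agent.P002.Global

variable {r : ℕ}

/-- An enumeration in which each index but the first is reached from an earlier one. -/
lemma exists_order {β : Matrix (Fin r) (Fin r) ℂ} (hβ : Connected β) (o : Fin r) :
    ∃ d : Fin r → ℕ, Function.Injective d ∧ ∀ m, m ≠ o → ∃ i, d i < d m ∧ β m i ≠ 0 := by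
  have key : ∀ n, n < r → ∃ (S : Finset (Fin r)) (d : Fin r → ℕ), o ∈ S ∧ S.card = n + 1 ∧
      Set.InjOn d S ∧ (∀ m ∈ S, d m ≤ n) ∧
        ∀ m ∈ S, m ≠ o → ∃ i ∈ S, d i < d m ∧ β m i ≠ 0 := by
    intro n
    induction n with
    | zero =>
      intro _
      refine ⟨{o}, fun _ => 0, by simp, by simp, by simp, by simp, by simp⟩
    | succ n ih =>
      intro hn
      obtain ⟨S, d, ho, hc, hi, hle, hpar⟩ := ih (by omega)
      obtain ⟨m, hm, i, hiS, hne⟩ := hβ S ⟨o, ho⟩ (fun h => by
        rw [h, Finset.card_univ, Fintype.card_fin] at hc; omega)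
      have hd : ∀ a ∈ S, Function.update d m (n + 1) a = d a := fun a ha =>
        Function.update_of_ne (fun h : a = m => hm (h ▸ ha)) _ _
      refine ⟨insert m S, Function.update d m (n + 1), Finset.mem_insert_of_mem ho,
        by rw [Finset.card_insert_of_notMem hm, hc], ?_, ?_, ?_⟩
      · intro a ha b hb hab
        simp only [Finset.coe_insert, Set.mem_insert_iff, Finset.mem_coe] at ha hb
        rcases ha with rfl | ha <;> rcases hb with rfl | hb
        · rfl
        · rw [Function.update_self, hd b hb] at hab; have := hle b hb; omega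
        · rw [Function.update_self, hd a ha] at hab; have := hle a ha; omega
        · rw [hd a ha, hd b hb] at hab; exact hi ha hb hab
      · intro a ha
        rcases Finset.mem_insert.1 ha with rfl | ha
        · simp
        · rw [hd a ha]; have := hle a ha; omega
      · intro a ha hao
        rcases Finset.mem_insert.1 ha with rfl | ha
        · exact ⟨i, Finset.mem_insert_of_mem hiS,
            by rw [hd i hiS, Function.update_self]; have := hle i hiS; omega, hne⟩
        · obtain ⟨j, hjS, hj, hj'⟩ := hpar a ha hao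
          exact ⟨j, Finset.mem_insert_of_mem hjS, by rw [hd a ha, hd j hjS]; exact hj, hj'⟩
  obtain ⟨S, d, -, hc, hi, -, hpar⟩ := key (r - 1) (by have := o.pos; omega)
  have hS : S = Finset.univ := Finset.eq_univ_of_card _ (by
    rw [hc, Fintype.card_fin]; have := o.pos; omega)
  subst hS
  refine ⟨d, fun a b h => hi (Finset.mem_coe.2 (Finset.mem_univ a))
    (Finset.mem_coe.2 (Finset.mem_univ b)) h, fun m hm => ?_⟩
  obtain ⟨i, -, h⟩ := hpar m (Finset.mem_univ _) hm
  exact ⟨i, h⟩

/-- Weights making the graph equations of `β` nondegenerate. -/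
lemma exists_weight {β : Matrix (Fin r) (Fin r) ℂ} (hdet : β.det ≠ 0) (hβ : Connected β) :
    ∃ ν : Fin r → ℂ, ∀ z : Fin r → ℂ, (∀ i, z i * (β *ᵥ ν) i = (z ᵥ* β) i * ν i) →
      z ⬝ᵥ (β *ᵥ ν) = 0 → z = 0 := by
  rcases r with _ | r
  · exact ⟨0, fun z _ _ => Subsingleton.elim _ _⟩
  obtain ⟨d, hd, hpar⟩ := exists_order hβ 0
  -- the earliest entry of each row
  have hrow : ∀ m, ∃ i, β m i ≠ 0 ∧ ∀ j, β m j ≠ 0 → d i ≤ d j := by
    intro m
    obtain ⟨i, hi⟩ : ∃ i, β m i ≠ 0 := by
      by_contra! h
      exact hdet (det_eq_zero_of_row_eq_zero m h)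
    obtain ⟨j, hj, hmin⟩ := Finset.exists_min_image (Finset.univ.filter fun j => β m j ≠ 0) d
      ⟨i, by simp [hi]⟩
    exact ⟨j, (Finset.mem_filter.1 hj).2, fun k hk => hmin k (by simp [hk])⟩
  choose π hπ hmin using hrow
  let T : Fin (r + 1) → ℂ → Fin (r + 1) → ℂ := fun m ε i =>
    β m i * ε ^ (d i - d (π m))
  let P : ℂ → Matrix (Fin (r + 1)) (Fin (r + 1)) ℂ := fun ε => .of fun m j =>
    (if j = 0 then ∑ i, T m ε i else (if m = j then ∑ i, T m ε i else 0) - T m ε j)
  have hT0 : ∀ m i, T m 0 i = if i = π m then β m i else 0 := by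
    intro m i
    by_cases h : i = π m
    · simp [T, h]
    · simp only [T, h, if_false]
      by_cases h0 : β m i = 0
      · simp [h0]
      · have := hmin m i h0
        have : d i ≠ d (π m) := fun e => h (hd e)
        rw [zero_pow (by omega), mul_zero]
  have hP0 : (P 0).det ≠ 0 := by
    intro h
    obtain ⟨x, hx, hPx⟩ := exists_mulVec_eq_zero_iff.2 h
    let c : Fin (r + 1) → ℂ := fun i => if i = 0 then 0 else x i
    have hrel : ∀ m, c m - c (π m) + x 0 = 0 := by
      intro m
      have := congrFun hPx m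
      simp only [mulVec, dotProduct, P, of_apply, hT0, Pi.zero_apply, Finset.sum_ite_eq',
        Finset.mem_univ, if_true] at this
      rw [← Finset.add_sum_erase _ _ (Finset.mem_univ (0 : Fin (r + 1)))] at this
      simp only [if_true] at this
      rw [Finset.sum_congr rfl (g := fun j => (if m = j then β m (π m) * x j else 0) -
        (if j = π m then β m (π m) * x j else 0)) (fun j hj => by
          simp only [Finset.ne_of_mem_erase hj, if_false]
          split_ifs with h1 h2 h2 <;> (try rw [h2]) <;> ring),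
        Finset.sum_sub_distrib, Finset.sum_ite_eq, Finset.sum_ite_eq'] at this
      simp only [Finset.mem_erase, Finset.mem_univ, and_true] at this
      refine mul_left_cancel₀ (hπ m) ?_
      rw [mul_zero]
      simp only [c, ne_eq] at this ⊢
      rcases eq_or_ne m 0 with rfl | h1
      · by_cases h2 : π 0 = 0 <;>
          simp only [h2, if_true, if_false, not_true, not_false_eq_true] at this ⊢ <;>
          linear_combination this
      · by_cases h2 : π m = 0 <;>
          simp only [h1, h2, if_true, if_false, not_true, not_false_eq_true] at this ⊢ <;>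
          linear_combination this
    have hlev : ∀ k m, d m ≤ k → ∃ n : ℕ, c m = -(n : ℂ) * x 0 := by
      intro k
      induction k using Nat.strong_induction_on with
      | _ k ih =>
        intro m hm
        by_cases h0 : m = 0
        · exact ⟨0, by simp [c, h0]⟩
        · obtain ⟨i, hi, hne⟩ := hpar m h0
          have hlt : d (π m) < d m := lt_of_le_of_lt (hmin m i hne) hi
          obtain ⟨n, hn⟩ := ih (d (π m)) (by omega) (π m) le_rfl
          exact ⟨n + 1, by push_cast; linear_combination hrel m + hn⟩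
    obtain ⟨n, hn⟩ := hlev _ (π 0) le_rfl
    have hx0 : x 0 = 0 := by
      have h1 : ((n + 1 : ℕ) : ℂ) * x 0 = 0 := by
        push_cast
        have := hrel 0
        simp only [c, if_true] at this hn ⊢
        linear_combination this + hn
      exact (mul_eq_zero.1 h1).resolve_left (Nat.cast_ne_zero.2 n.succ_ne_zero)
    refine hx (funext fun i => ?_)
    by_cases h0 : i = 0
    · rw [h0, hx0]; rfl
    · obtain ⟨n, hn⟩ := hlev _ i le_rfl
      simpa [c, h0, hx0] using hn
  have hev : ∀ᶠ ε in 𝓝 (0 : ℂ), (P ε).det ≠ 0 :=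
    (Continuous.matrix_det (continuous_matrix fun m j => by
      simp only [P, T, of_apply]
      split_ifs <;> fun_prop)).continuousAt.eventually_ne hP0
  obtain ⟨ε, hε, hε0⟩ := ((hev.filter_mono nhdsWithin_le_nhds).and
    (eventually_mem_nhdsWithin (s := ({0}ᶜ : Set ℂ)))).exists
  have hε0 : ε ≠ 0 := hε0
  refine ⟨fun i => ε ^ d i, fun z hz hz0 => ?_⟩
  set y : Fin (r + 1) → ℂ := fun m => z m * ε ^ d (π m) with hy
  have hTv : ∀ m i, ε ^ d (π m) * T m ε i = β m i * ε ^ d i := by
    intro m i
    by_cases h0 : β m i = 0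
    · simp [T, h0]
    · simp only [T]
      rw [mul_left_comm, ← pow_add, Nat.add_sub_cancel' (hmin m i h0)]
  have hv : ∀ m, ε ^ d (π m) * ∑ i, T m ε i = (β *ᵥ fun i => ε ^ d i) m := by
    intro m
    simp only [Finset.mul_sum, hTv, mulVec, dotProduct]
  have hker : y ᵥ* P ε = 0 := by
    funext j
    simp only [vecMul, dotProduct, hy, P, of_apply, Pi.zero_apply, mul_assoc]
    by_cases h0 : j = 0
    · simp only [h0, if_true, hv]
      exact hz0
    · simp only [h0, if_false, mul_sub, mul_ite, mul_zero, hv, hTv, Finset.sum_sub_distrib,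
        Finset.sum_ite_eq', Finset.mem_univ, if_true]
      rw [hz j, sub_eq_zero]
      simp only [vecMul, dotProduct, Finset.sum_mul, mul_assoc]
  have hy0 : y = 0 := by
    by_contra h
    exact hε (exists_vecMul_eq_zero_iff.1 ⟨y, h, hker⟩)
  funext m
  exact (mul_eq_zero.1 (congrFun hy0 m)).resolve_right (pow_ne_zero _ hε0)

lemma slope_diagonal (l v : Fin r → ℂ) (t : ℂ) (k : Fin r) :
    (slope (diagonal l) v k).eval t = v k * ∏ j ∈ Finset.univ.erase k, (t - l j) := by
  simp [slope, charmatrix_diagonal, adjugate_diagonal, mulVec_diagonal, eval_prod, mul_comm]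

lemma pert_diagonal (l v z : Fin r → ℂ) (t : ℂ) :
    ((diagonal l).charpoly - (diagonal l + vecMulVec v z).charpoly).eval t =
      ∑ k, z k * (v k * ∏ j ∈ Finset.univ.erase k, (t - l j)) := by
  simp [charpoly_add_vecMulVec, eval_finsetSum, slope_diagonal]

lemma pert_diagonal_self (l v z : Fin r → ℂ) (i : Fin r) :
    ((diagonal l).charpoly - (diagonal l + vecMulVec v z).charpoly).eval (l i) =
      z i * v i * ∏ j ∈ Finset.univ.erase i, (l i - l j) := by
  rw [pert_diagonal, Finset.sum_eq_single i, mul_assoc]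
  · intro k _ hk
    rw [Finset.prod_eq_zero (Finset.mem_erase.2 ⟨hk.symm, Finset.mem_univ i⟩) (sub_self _),
      mul_zero, mul_zero]
  · simp

lemma charpoly_conj {V W : Matrix (Fin r) (Fin r) ℂ} (hWV : W * V = 1) (X : Matrix (Fin r) (Fin r) ℂ) :
    (V * X * W).charpoly = X.charpoly := by
  rw [mul_assoc, charpoly_mul_comm, mul_assoc, hWV, mul_one]

/-- The closing equation is nonsingular for a suitable `u` at a handle with simple spectrum and
connected graph. -/
lemma exists_good_vec (hr : 0 < r) {A M b V Vi bi : Matrix (Fin r) (Fin r) ℂ} {l : Fin r → ℂ}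
    (hV : Vi * V = 1) (hb : bi * b = 1) (hA : A = V * diagonal l * Vi)
    (hl : Function.Injective l) (hl0 : ∀ i, l i ≠ 0) (hM : M.det = 1) (hAM : A * M = b * A * bi)
    (hβ : Connected (Vi * b * V)) :
    ∃ u : Fin r → ℂ, (sys A M u).det ≠ 0 := by
  have hV' : V * Vi = 1 := mul_eq_one_comm.1 hV
  set β := Vi * b * V with hβd
  have hdetβ : β.det ≠ 0 := by
    have h1 : (Vi * bi * V) * β = 1 := by
      calc (Vi * bi * V) * β = Vi * bi * (V * Vi) * b * V := by simp only [β, mul_assoc]
        _ = Vi * (bi * b) * V := by rw [hV']; simp only [mul_one, mul_assoc]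
        _ = 1 := by rw [hb, mul_one, hV]
    intro h
    have := congrArg Matrix.det h1
    rw [det_mul, h, mul_zero, det_one] at this
    exact zero_ne_one this
  obtain ⟨ν, hν⟩ := exists_weight hdetβ hβ
  set v := β *ᵥ ν with hv
  refine ⟨V *ᵥ v, fun hdet => ?_⟩
  obtain ⟨w, hw0, hw⟩ := exists_mulVec_eq_zero_iff.2 hdet
  set u := V *ᵥ v with hu
  set p : Polynomial ℂ := A.charpoly - (A + vecMulVec u w).charpoly with hp
  set q : Polynomial ℂ := (A * M).charpoly - ((A + vecMulVec u w) * M).charpoly with hq
  have hk : ∀ k : Fin r, if (k : ℕ) = 0 then p.coeff 0 = 0 else p.coeff k = q.coeff k := by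
    intro k
    have := congrFun hw k
    simp only [mulVec, dotProduct, sys, of_apply, Pi.zero_apply] at this
    simp only [hp, hq, charpoly_add_vecMulVec, mul_vecMulVec_slope, sub_sub_cancel,
      finsetSum_coeff, coeff_C_mul]
    by_cases h0 : (k : ℕ) = 0
    · simp only [h0, if_true] at this ⊢
      rw [← this]
      exact Finset.sum_congr rfl fun _ _ => mul_comm _ _
    · simp only [h0, if_false, sub_mul, Finset.sum_sub_distrib] at this ⊢
      rw [sub_eq_zero] at this
      convert this using 1
      · exact Finset.sum_congr rfl fun _ _ => mul_comm _ _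
      · simp only [Finset.sum_mul]
        rw [Finset.sum_comm]
        exact Finset.sum_congr rfl fun _ _ => Finset.sum_congr rfl fun _ _ => by ring
  have hp0 : p.coeff 0 = 0 := by simpa using hk ⟨0, hr⟩
  have hq0 : q.coeff 0 = 0 := by
    have h1 : ∀ X : Matrix (Fin r) (Fin r) ℂ, (X * M).charpoly.coeff 0 = X.charpoly.coeff 0 := by
      intro X
      have e1 := det_eq_sign_charpoly_coeff (X * M)
      have e2 := det_eq_sign_charpoly_coeff X
      rw [det_mul, hM, mul_one, e2] at e1
      exact ((isUnit_one.neg.pow _).mul_left_cancel e1).symm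
    rw [hq, coeff_sub, h1, h1, ← coeff_sub]
    exact hp0
  have hpq : p = q := by
    have hdeg : ∀ (X Y : Matrix (Fin r) (Fin r) ℂ) (k : ℕ), r ≤ k →
        (X.charpoly - Y.charpoly).coeff k = 0 := by
      intro X Y k hk
      rw [coeff_sub, sub_eq_zero]
      rcases hk.eq_or_lt with h | h
      · have e : ∀ B : Matrix (Fin r) (Fin r) ℂ, B.charpoly.coeff k = 1 := fun B => by
          have := charpoly_monic B
          rw [Monic, leadingCoeff, charpoly_natDegree_eq_dim, Fintype.card_fin] at this
          rw [← h]; exact this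
        rw [e, e]
      · rw [coeff_eq_zero_of_natDegree_lt, coeff_eq_zero_of_natDegree_lt] <;>
          rw [charpoly_natDegree_eq_dim, Fintype.card_fin] <;> exact h
    refine Polynomial.ext fun k => ?_
    by_cases hkr : r ≤ k
    · rw [hdeg _ _ k hkr, hdeg _ _ k hkr]
    · rcases Nat.eq_zero_or_pos k with rfl | h0
      · rw [hp0, hq0]
      · simpa [h0.ne'] using hk ⟨k, by omega⟩
  -- both differences in eigencoordinates
  set z₁ := w ᵥ* V with hz1
  set z : Fin r → ℂ := fun i => z₁ i / l i with hz
  have hpd : p = (diagonal l).charpoly - (diagonal l + vecMulVec v z₁).charpoly := by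
    have e : A + vecMulVec u w = V * (diagonal l + vecMulVec v z₁) * Vi := by
      rw [mul_add, add_mul, ← hA, mul_vecMulVec, vecMulVec_mul, hz1, vecMul_vecMul, hV', vecMul_one]
    rw [hp, e, hA, charpoly_conj hV, charpoly_conj hV]
  set W := b * V with hW
  set Wi := Vi * bi with hWi
  have hWW : Wi * W = 1 := by
    rw [hW, hWi, ← mul_assoc, mul_assoc Vi, hb, mul_one, hV]
  have hWW' : W * Wi = 1 := mul_eq_one_comm.1 hWW
  have hAMd : A * M = W * diagonal l * Wi := by
    rw [hAM, hA, hW, hWi]; simp only [mul_assoc]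
  set z₂ := w ᵥ* (M * W) with hz2
  have hqd : q = (diagonal l).charpoly - (diagonal l + vecMulVec ν z₂).charpoly := by
    have e : (A + vecMulVec u w) * M = W * (diagonal l + vecMulVec ν z₂) * Wi := by
      have hWν : W *ᵥ ν = u := by
        rw [hu, hv, mulVec_mulVec, hβd]
        congr 1
        rw [← mul_assoc, ← mul_assoc, hV', one_mul]
      rw [add_mul, mul_add, add_mul, ← hAMd, vecMulVec_mul, mul_vecMulVec, vecMulVec_mul, hWν,
        hz2, vecMul_vecMul, mul_assoc M, hWW', mul_one]
    rw [hq, e, hAMd, charpoly_conj hWW, charpoly_conj hWW]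
  have hz2' : ∀ i, z₂ i = (z ᵥ* β) i * l i := by
    intro i
    have h1 : A * (M * W) = W * diagonal l := by
      rw [← mul_assoc, hAMd, mul_assoc, hWW, mul_one]
    have h2 : (V * diagonal (fun i => (l i)⁻¹) * Vi) * A = 1 := by
      rw [hA]
      calc V * diagonal (fun i => (l i)⁻¹) * Vi * (V * diagonal l * Vi)
          = V * (diagonal (fun i => (l i)⁻¹) * (Vi * V) * diagonal l) * Vi := by
            simp only [mul_assoc]
        _ = 1 := by
            rw [hV, mul_one, diagonal_mul_diagonal]
            simp [hl0, hV']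
    have h3 : M * W = V * diagonal (fun i => (l i)⁻¹) * Vi * (W * diagonal l) := by
      rw [← h1, ← mul_assoc (V * diagonal _ * Vi), h2, one_mul]
    have hzv : z = z₁ ᵥ* diagonal (fun i => (l i)⁻¹) := by
      funext k; simp [hz, vecMul_diagonal, div_eq_mul_inv]
    rw [hz2, h3, hW, hβd, hzv, hz1]
    rw [← vecMul_diagonal, vecMul_vecMul, vecMul_vecMul, vecMul_vecMul]
    simp only [mul_assoc]
  have hgraph : ∀ i, z i * v i = (z ᵥ* β) i * ν i := by
    intro i
    have h := congrArg (fun f : Polynomial ℂ => f.eval (l i)) hpq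
    simp only [hpd, hqd, pert_diagonal_self, hz2'] at h
    have hne : ∏ j ∈ Finset.univ.erase i, (l i - l j) ≠ 0 :=
      Finset.prod_ne_zero_iff.2 fun j hj => sub_ne_zero.2 fun e =>
        Finset.ne_of_mem_erase hj (hl e).symm
    have h' := mul_right_cancel₀ hne h
    simp only [hz, div_mul_eq_mul_div]
    rw [div_eq_iff (hl0 i), h']
    ring
  have hsum : z ⬝ᵥ v = 0 := by
    have h := hp0
    rw [coeff_zero_eq_eval_zero, hpd, pert_diagonal] at h
    have e : ∑ k, z₁ k * (v k * ∏ j ∈ Finset.univ.erase k, ((0 : ℂ) - l j)) =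
        (∏ j, ((0 : ℂ) - l j)) * -(z ⬝ᵥ v) := by
      rw [dotProduct, mul_neg, Finset.mul_sum, ← Finset.sum_neg_distrib]
      refine Finset.sum_congr rfl fun k _ => ?_
      rw [← Finset.mul_prod_erase _ _ (Finset.mem_univ k)]
      simp only [hz]
      field_simp [hl0 k]
      ring
    rw [e, mul_eq_zero] at h
    rcases h with h | h
    · obtain ⟨j, -, hj⟩ := Finset.prod_eq_zero_iff.1 h
      exact absurd (by simpa using hj) (hl0 j)
    · exact neg_eq_zero.1 h
  have hz0 : z = 0 := hν z hgraph hsum
  have hz10 : z₁ = 0 := by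
    funext i
    have := congrFun hz0 i
    simpa [hz, hl0 i] using this
  refine hw0 ?_
  have := congrArg (fun y => y ᵥ* Vi) hz10
  simpa [hz1, vecMul_vecMul, hV'] using this

end Vale.Agent.P002.Global
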