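import Vale.Agent.P002.Global.Chart
import Vale.Agent.P002.Surface.Mirror

/-! Vanishing near one representation with a generic first handle propagates to all of them. -/

open Matrix Filter Topology

namespace Vale.Agent.P002.Global

open Vale.Agent.P002.Surface (Mat Tup PF PMap rel exists_curve mul_adj adj_mul)

attribute [local instance] Matrix.linftyOpNormedAddCommGroup Matrix.linftyOpNormedSpace
  Matrix.linftyOpNormedRing Matrix.linftyOpNormedAlgebra

variable {r n s : ℕ}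

/-- Boundary matrices from conjugators. -/
def bdC (J k : Fin s → Mat r) : Fin s → Mat r := fun i => k i * J i * (k i).adjugate

/-- The point with first handle `(a, b)`, further handles `x` and conjugators `k`. -/
def mk (J : Fin s → Mat r) (q : Mat r × Mat r × (Tup n r × (Fin s → Mat r))) :
    Tup (n + 1) r × (Fin s → Mat r) := (Fin.cons (q.1, q.2.1) q.2.2.1, bdC J q.2.2.2)

lemma pmap_mk (J : Fin s → Mat r) : PMap (mk (n := n) J) := by
  have hk : ∀ i, PMap (fun q : Mat r × Mat r × (Tup n r × (Fin s → Mat r)) => q.2.2.2 i) :=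
    fun i => (PMap.proj i).comp (PMap.snd.comp (PMap.snd.comp PMap.snd))
  refine PMap.prodMk (PMap.pi fun i => Fin.cases ?_ (fun j => ?_) i)
    (PMap.pi fun i => ((hk i).mul (PMap.const _)).mul (hk i).adjugate)
  · exact PMap.fst.prodMk (PMap.fst.comp PMap.snd)
  · exact (PMap.proj j).comp (PMap.fst.comp (PMap.snd.comp PMap.snd))

/-- The product of everything but the first handle. -/
def tailP (J : Fin s → Mat r) (y : Tup n r × (Fin s → Mat r)) : Mat r :=
  rel y.1 * (List.ofFn (bdC J y.2)).prod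

lemma pmap_tailP (J : Fin s → Mat r) : PMap (tailP (n := n) J) := by
  have hk : ∀ i, PMap (fun q : Tup n r × (Fin s → Mat r) => q.2 i) :=
    fun i => (PMap.proj i).comp PMap.snd
  have e : tailP (n := n) J = fun y => rel y.1 *
      ((List.finRange s).map fun i => bdC J y.2 i).prod := by
    funext y; rw [tailP, List.ofFn_eq_map]
  rw [e]
  exact (PMap.rel.comp PMap.fst).mul (PMap.listProd _ _ fun i _ =>
    ((hk i).mul (PMap.const _)).mul (hk i).adjugate)

lemma rel_mk (J : Fin s → Mat r) (q : Mat r × Mat r × (Tup n r × (Fin s → Mat r))) :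
    rel (mk J q).1 * (List.ofFn (mk J q).2).prod = Surface.comm (q.1, q.2.1) * tailP J q.2.2 := by
  simp [mk, rel, tailP, List.ofFn_succ, mul_assoc]

lemma det_tailP {J : Fin s → Mat r} (hJ : ∀ i, (J i).det = 1) {y : Tup n r × (Fin s → Mat r)}
    (h1 : ∀ i, (y.1 i).1.det = 1 ∧ (y.1 i).2.det = 1) (h2 : ∀ i, (y.2 i).det = 1) :
    (tailP J y).det = 1 := by
  have hp : ∀ L : List (Mat r), (∀ X ∈ L, X.det = 1) → L.prod.det = 1 := by
    intro L hL
    induction L with
    | nil => simp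
    | cons X L ih =>
      rw [List.prod_cons, det_mul, hL X List.mem_cons_self,
        ih fun Z hZ => hL Z (List.mem_cons_of_mem _ hZ), one_mul]
  rw [tailP, det_mul, rel, hp, hp, one_mul]
  · intro X hX
    obtain ⟨i, rfl⟩ := (List.mem_ofFn' _ _).1 hX
    simp [bdC, det_mul, det_adjugate, h2 i, hJ i]
  · intro X hX
    obtain ⟨i, rfl⟩ := (List.mem_ofFn' _ _).1 hX
    simp [Surface.comm, det_mul, det_adjugate, (h1 i).1, (h1 i).2]

/-- Membership through the closing equation. -/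
lemma mk_mem_iff {J : Fin s → Mat r} (hJ : ∀ i, (J i).det = 1) {a b : Mat r}
    {y : Tup n r × (Fin s → Mat r)} (h1 : ∀ i, (y.1 i).1.det = 1 ∧ (y.1 i).2.det = 1)
    (h2 : ∀ i, (y.2 i).det = 1) :
    mk J (a, b, y) ∈ HomC J ↔ Closes (tailP J y).adjugate a b := by
  have hP := det_tailP hJ h1 h2
  constructor
  · rintro ⟨hd, -, hr⟩
    rw [rel_mk] at hr
    have ha : a.det = 1 := (hd 0).1
    have hb : b.det = 1 := (hd 0).2
    refine ⟨ha, hb, ?_⟩
    have hc : (tailP J y).adjugate = Surface.comm (a, b) := by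
      rw [← one_mul (tailP J y).adjugate, ← hr, mul_assoc, mul_adj hP, mul_one]
    rw [hc, Surface.comm]
    simp only [← mul_assoc]
    rw [adj_mul ha, one_mul]
  · rintro ⟨ha, hb, hc⟩
    refine ⟨Fin.cases ⟨ha, hb⟩ h1, fun i => ⟨y.2 i, h2 i, rfl⟩, ?_⟩
    rw [rel_mk]
    have e : Surface.comm (a, b) = (tailP J y).adjugate := by
      calc Surface.comm (a, b) = a * (b * a.adjugate * b.adjugate) := by simp only [Surface.comm, mul_assoc]
        _ = (tailP J y).adjugate := by rw [← hc, ← mul_assoc, mul_adj ha, one_mul]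
    rw [e, adj_mul hP]

lemma exists_lift {J : Fin s → Mat r} {x : Tup (n + 1) r × (Fin s → Mat r)} (hx : x ∈ HomC J) :
    ∃ y : Tup n r × (Fin s → Mat r), (∀ i, (y.1 i).1.det = 1 ∧ (y.1 i).2.det = 1) ∧
      (∀ i, (y.2 i).det = 1) ∧ mk J ((x.1 0).1, (x.1 0).2, y) = x := by
  choose k hk hxk using hx.2.1
  refine ⟨(fun i => x.1 i.succ, k), fun i => hx.1 i.succ, hk, Prod.ext ?_ (funext fun i => (hxk i).symm)⟩
  funext i
  exact Fin.cases rfl (fun j => rfl) i

/-- A curve of tails between two prescribed tails. -/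
lemma exists_tail_curve {y₀ y₁ : Tup n r × (Fin s → Mat r)}
    (h₀a : ∀ i, (y₀.1 i).1.det = 1 ∧ (y₀.1 i).2.det = 1) (h₀b : ∀ i, (y₀.2 i).det = 1)
    (h₁a : ∀ i, (y₁.1 i).1.det = 1 ∧ (y₁.1 i).2.det = 1) (h₁b : ∀ i, (y₁.2 i).det = 1) :
    ∃ y : ℂ → Tup n r × (Fin s → Mat r), ContDiff ℂ 1 y ∧ y 0 = y₀ ∧ y 1 = y₁ ∧
      ∀ t, (∀ i, ((y t).1 i).1.det = 1 ∧ ((y t).1 i).2.det = 1) ∧ ∀ i, ((y t).2 i).det = 1 := by
  choose p hp hpd hp0 hp1 using fun i => exists_curve (h₀a i).1 (h₁a i).1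
  choose q hq hqd hq0 hq1 using fun i => exists_curve (h₀a i).2 (h₁a i).2
  choose k hk hkd hk0 hk1 using fun i => exists_curve (h₀b i) (h₁b i)
  exact ⟨fun t => (fun i => (p i t, q i t), fun i => k i t),
    (contDiff_pi.2 fun i => (hp i).prodMk (hq i)).prodMk (contDiff_pi.2 hk),
    Prod.ext (funext fun i => Prod.ext (hp0 i) (hq0 i)) (funext hk0),
    Prod.ext (funext fun i => Prod.ext (hp1 i) (hq1 i)) (funext hk1),
    fun t => ⟨fun i => ⟨hpd i t, hqd i t⟩, fun i => hkd i t⟩⟩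

/-- A torus commuting with a matrix with simple spectrum that contains the centre. -/
lemma exists_torus (hr : 0 < r) {A b : Mat r} (hs : Simple A b) :
    ∃ E : ℂ → Mat r, Differentiable ℂ E ∧ (∀ τ, (E τ).det = 1) ∧
      (∀ τ, E τ * A = A * E τ) ∧ (∀ τ, Simple A (b * E τ)) ∧
      ∀ ζ : ℂ, ζ ^ r = 1 → ∃ τ, E τ = ζ • (1 : Mat r) := by
  obtain ⟨V, Vi, l, hV, hA, hl, hl0, hc⟩ := hs
  have hV' : V * Vi = 1 := mul_eq_one_comm.1 hV
  let d : Fin r → ℂ := fun i =>
    2 * Real.pi * Complex.I * ((if (i : ℕ) = 0 then 1 else 0) - (r : ℂ)⁻¹)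
  refine ⟨fun τ => V * diagonal (fun i => Complex.exp (τ * d i)) * Vi, fun σ => diff_mat fun i j => ?_,
    fun τ => ?_, fun τ => ?_, fun τ => ⟨V, Vi, l, hV, hA, hl, hl0, ?_⟩, fun ζ hζ => ?_⟩
  · simp only [mul_apply, diagonal_apply]
    refine DifferentiableAt.fun_sum fun m _ => DifferentiableAt.mul ?_ (differentiableAt_const _)
    refine DifferentiableAt.fun_sum fun m' _ => DifferentiableAt.mul (differentiableAt_const _) ?_
    split_ifs <;> fun_prop
  · have hVd : V.det * Vi.det = 1 := by rw [← det_mul, hV', det_one]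
    have hsum : ∑ i, d i = 0 := by
      have h0 : (Finset.univ.filter fun i : Fin r => (i : ℕ) = 0) = {⟨0, hr⟩} := by
        ext i; simp [Fin.ext_iff]
      simp only [d, ← Finset.mul_sum, Finset.sum_sub_distrib, Finset.sum_boole, h0,
        Finset.card_singleton, Finset.sum_const, Finset.card_univ, Fintype.card_fin, nsmul_eq_mul,
        Nat.cast_one]
      rw [mul_inv_cancel₀ (Nat.cast_ne_zero.2 hr.ne'), sub_self, mul_zero]
    simp only [det_mul, det_diagonal, ← Complex.exp_sum, ← Finset.mul_sum, hsum, mul_zero,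
      Complex.exp_zero, mul_one, hVd]
  · rw [hA]
    have hdd : diagonal (fun i => Complex.exp (τ * d i)) * diagonal l =
        diagonal l * diagonal (fun i => Complex.exp (τ * d i)) := by
      rw [diagonal_mul_diagonal, diagonal_mul_diagonal]
      congr 1; funext i; ring
    calc _ = V * (diagonal (fun i => Complex.exp (τ * d i)) * (Vi * V) * diagonal l) * Vi := by
          simp only [mul_assoc]
      _ = V * (diagonal l * (Vi * V) * diagonal fun i => Complex.exp (τ * d i)) * Vi := by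
          rw [hV, mul_one, mul_one, hdd]
      _ = _ := by simp only [mul_assoc]
  · have e : Vi * (b * (V * diagonal (fun i => Complex.exp (τ * d i)) * Vi)) * V =
        Vi * b * V * diagonal (fun i => Complex.exp (τ * d i)) := by
      calc _ = Vi * b * V * diagonal (fun i => Complex.exp (τ * d i)) * (Vi * V) := by
            simp only [mul_assoc]
        _ = _ := by rw [hV, mul_one]
    rw [e]
    intro S hS hS'
    obtain ⟨m, hm, i, hi, hne⟩ := hc S hS hS'
    exact ⟨m, hm, i, hi, by rw [mul_diagonal]; exact mul_ne_zero hne (Complex.exp_ne_zero _)⟩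
  · have : NeZero r := ⟨hr.ne'⟩
    obtain ⟨m, -, hm⟩ := (Complex.isPrimitiveRoot_exp r hr.ne').eq_pow_of_pow_eq_one hζ
    refine ⟨-(m : ℂ), ?_⟩
    have e : (fun i => Complex.exp (-(m : ℂ) * d i)) = fun _ : Fin r => ζ := by
      funext i
      rw [← hm, ← Complex.exp_nat_mul]
      refine Complex.exp_eq_exp_iff_exists_int.2 ⟨-(m : ℤ) * (if (i : ℕ) = 0 then 1 else 0), ?_⟩
      simp only [d]
      split_ifs <;> push_cast <;> field_simp <;> ring
    show V * diagonal (fun i => Complex.exp (-(m : ℂ) * d i)) * Vi = _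
    rw [e, show diagonal (fun _ : Fin r => ζ) = ζ • (1 : Mat r) from (smul_one_eq_diagonal _).symm,
      mul_smul_comm, mul_one, smul_mul_assoc, hV']

/-- The functions on tuples vanishing on representations near `x₀`. -/
def Van (J : Fin s → Mat r) (x₀ : Tup (n + 1) r × (Fin s → Mat r)) :
    Set ((Tup (n + 1) r × (Fin s → Mat r)) → ℂ) :=
  {g | g ∈ PF _ ∧ ∀ᶠ x in 𝓝 x₀, x ∈ HomC J → g x = 0}

/-- A finite set of points on which each member of `Van` has a zero has a common zero. -/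
lemma common_zero {J : Fin s → Mat r} {x₀ : Tup (n + 1) r × (Fin s → Mat r)} {μ : Finset ℂ}
    {pt : ℂ → Tup (n + 1) r × (Fin s → Mat r)}
    (hone : ∀ g ∈ Van J x₀, ∃ ζ ∈ μ, g (pt ζ) = 0) :
    ∃ ζ ∈ μ, ∀ g ∈ Van J x₀, g (pt ζ) = 0 := by
  classical
  by_contra! h
  choose! gg hgI hgne using h
  let e := Fintype.equivFin μ
  let P : μ → Polynomial ℂ := fun ζ => ∑ η : μ,
    Polynomial.C (gg η (pt ζ)) * Polynomial.X ^ (e η : ℕ)
  have hP : ∀ ζ, P ζ ≠ 0 := by
    intro ζ h0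
    have := congrArg (fun p => p.coeff (e ζ : ℕ)) h0
    simp only [P, Polynomial.finsetSum_coeff, Polynomial.coeff_C_mul, Polynomial.coeff_X_pow,
      mul_ite, mul_one, mul_zero, Polynomial.coeff_zero] at this
    rw [Finset.sum_eq_single ζ (fun η _ hη => if_neg fun hh =>
      hη (e.injective (Fin.ext hh.symm))) (by simp), if_pos rfl] at this
    exact hgne _ ζ.2 this
  obtain ⟨c, hc⟩ := Infinite.exists_notMem_finset
    (Finset.univ.biUnion fun ζ : μ => (P ζ).roots.toFinset)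
  let h : (Tup (n + 1) r × (Fin s → Mat r)) → ℂ :=
    ∑ η : μ, (fun _ => c ^ (e η : ℕ)) * gg η
  have hh : h ∈ Van J x₀ := by
    refine ⟨(PF _).sum_mem fun η _ => (PF _).mul_mem (PF.const _) (hgI _ η.2).1, ?_⟩
    filter_upwards [eventually_all.2 fun η : μ => (hgI _ η.2).2] with x hx hxH
    simp [h, Finset.sum_apply, fun η : μ => hx η hxH]
  obtain ⟨ζ, hζ, hz⟩ := hone h hh
  refine hc (Finset.mem_biUnion.2 ⟨⟨ζ, hζ⟩, Finset.mem_univ _, ?_⟩)
  rw [Multiset.mem_toFinset, Polynomial.mem_roots (hP _), Polynomial.IsRoot]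
  simpa [P, h, Finset.sum_apply, Polynomial.eval_finsetSum, mul_comm] using hz

/-- Each function vanishing near the base point vanishes at the target up to a central factor. -/
lemma one_zero (hr : 0 < r) {J : Fin s → Mat r} (hJ : ∀ i, (J i).det = 1)
    {a₀ b₀ a b : Mat r} {y₀ y₁ : Tup n r × (Fin s → Mat r)}
    (h₀a : ∀ i, (y₀.1 i).1.det = 1 ∧ (y₀.1 i).2.det = 1) (h₀b : ∀ i, (y₀.2 i).det = 1)
    (h₁a : ∀ i, (y₁.1 i).1.det = 1 ∧ (y₁.1 i).2.det = 1) (h₁b : ∀ i, (y₁.2 i).det = 1)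
    (hc₀ : Closes (tailP J y₀).adjugate a₀ b₀) (hc : Closes (tailP J y₁).adjugate a b)
    (hs₀ : Simple a₀.adjugate b₀) (hs : Simple a.adjugate b)
    {g : Tup (n + 1) r × (Fin s → Mat r) → ℂ} (hg : g ∈ Van J (mk J (a₀, b₀, y₀))) :
    ∃ ζ ∈ Polynomial.nthRootsFinset r (1 : ℂ), g (mk J (a, ζ • b, y₁)) = 0 := by
  obtain ⟨y, hy, ey0, ey1, hyd⟩ := exists_tail_curve h₀a h₀b h₁a h₁b
  obtain ⟨hg, hgv⟩ := hg
  let M : ℂ → Mat r := fun t => (tailP J (y t)).adjugate
  have hMd : Differentiable ℂ M :=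
    ((pmap_tailP J).adjugate.contDiff.comp hy).differentiable one_ne_zero
  have hM1 : ∀ t, (M t).det = 1 := fun t => by
    simp only [M]; rw [det_adjugate, det_tailP hJ (hyd t).1 (hyd t).2, one_pow]
  have hF : (fun q : Mat r × Mat r × (Tup n r × (Fin s → Mat r)) => g (mk J q)) ∈ PF _ :=
    PF.comp hg (pmap_mk J)
  have hmap : ContinuousAt (fun u : ℂ × Mat r × Mat r => mk J (u.2.1, u.2.2, y u.1))
      (0, a₀, b₀) := by
    refine (pmap_mk (n := n) J).contDiff.continuous.continuousAt.comp ?_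
    exact (continuous_snd.fst.prodMk (continuous_snd.snd.prodMk
      (hy.continuous.comp continuous_fst))).continuousAt
  have hev := hmap.eventually (show ∀ᶠ x in 𝓝 (mk J (a₀, b₀, y 0)), x ∈ HomC J → g x = 0 by
    rw [ey0]; exact hgv)
  obtain ⟨ζ, hζ, hz⟩ := chart_propagate hr hMd hM1 (hy.differentiable one_ne_zero)
    (by simp only [M, ey0]; exact hc₀) (by simp only [M, ey1]; exact hc) hs₀ hs hF (by
      filter_upwards [hev] with u hu hcl
      exact hu ((mk_mem_iff hJ (hyd u.1).1 (hyd u.1).2).2 hcl))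
  exact ⟨ζ, (Polynomial.mem_nthRootsFinset hr _).2 hζ, by simpa [ey1] using hz⟩

/-- Vanishing near one generic point gives vanishing at every generic point. -/
theorem propagate (hr : 0 < r) {J : Fin s → Mat r} (hJ : ∀ i, (J i).det = 1)
    {x₀ x₁ : Tup (n + 1) r × (Fin s → Mat r)} (h₀ : x₀ ∈ HomC J) (h₁ : x₁ ∈ HomC J)
    (hs₀ : Simple (x₀.1 0).1.adjugate (x₀.1 0).2) (hs₁ : Simple (x₁.1 0).1.adjugate (x₁.1 0).2)
    {f : Tup (n + 1) r × (Fin s → Mat r) → ℂ} (hf : f ∈ PF _)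
    (hvan : ∀ᶠ x in 𝓝 x₀, x ∈ HomC J → f x = 0) : f x₁ = 0 := by
  obtain ⟨y₀, h₀a, h₀b, hx₀⟩ := exists_lift h₀
  obtain ⟨y₁, h₁a, h₁b, hx₁⟩ := exists_lift h₁
  have hc₀ := (mk_mem_iff hJ h₀a h₀b).1 (hx₀.symm ▸ h₀)
  have hc₁ := (mk_mem_iff hJ h₁a h₁b).1 (hx₁.symm ▸ h₁)
  generalize (x₀.1 0).1 = a₀ at hx₀ hc₀ hs₀
  generalize (x₀.1 0).2 = b₀ at hx₀ hc₀ hs₀
  generalize (x₁.1 0).1 = a₁ at hx₁ hc₁ hs₁
  generalize (x₁.1 0).2 = b₁ at hx₁ hc₁ hs₁
  obtain ⟨E, hE, hEd, hEc, hEs, hEz⟩ := exists_torus hr hs₁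
  have hcE : ∀ τ, Closes (tailP J y₁).adjugate a₁ (b₁ * E τ) := by
    intro τ
    refine ⟨hc₁.1, by rw [det_mul, hc₁.2.1, hEd, one_mul], ?_⟩
    rw [hc₁.2.2, adjugate_mul_distrib]
    calc b₁ * a₁.adjugate * b₁.adjugate
        = b₁ * a₁.adjugate * (E τ * (E τ).adjugate) * b₁.adjugate := by
          rw [mul_adj (hEd τ), mul_one]
      _ = b₁ * (a₁.adjugate * E τ) * (E τ).adjugate * b₁.adjugate := by simp only [mul_assoc]
      _ = _ := by rw [← hEc]; simp only [mul_assoc]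
  have hall : ∀ τ, ∃ ζ ∈ Polynomial.nthRootsFinset r (1 : ℂ),
      ∀ g ∈ Van J x₀, g (mk J (a₁, ζ • (b₁ * E τ), y₁)) = 0 := fun τ =>
    common_zero fun g hg => one_zero hr hJ h₀a h₀b h₁a h₁b hc₀ (hcE τ) hs₀ (hEs τ)
      (hx₀.symm ▸ hg)
  obtain ⟨ζ, hζμ, hunc⟩ : ∃ ζ ∈ Polynomial.nthRootsFinset r (1 : ℂ),
      ¬ {τ | ∀ g ∈ Van J x₀, g (mk J (a₁, ζ • (b₁ * E τ), y₁)) = 0}.Countable := by
    by_contra! h
    refine not_countable_complex
      (((Polynomial.nthRootsFinset r (1 : ℂ) : Finset ℂ).finite_toSet.countable.biUnion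
        (t := fun ζ _ => {τ | ∀ g ∈ Van J x₀, g (mk J (a₁, ζ • (b₁ * E τ), y₁)) = 0})
        fun ζ hζ => h ζ hζ).mono fun τ _ => ?_)
    obtain ⟨ζ, hζ, hz⟩ := hall τ
    exact Set.mem_biUnion (Finset.mem_coe.2 hζ) hz
  have hζr : ζ ^ r = 1 := (Polynomial.mem_nthRootsFinset hr _).1 hζμ
  have hne : ζ ≠ 0 := fun h => by simp [h, hr.ne'] at hζr
  obtain ⟨τ, hτ⟩ := hEz ζ⁻¹ (by rw [inv_pow, hζr, inv_one])
  by_contra hfne
  refine hunc ((countable_zeros (f := fun σ => f (mk J (a₁, ζ • (b₁ * E σ), y₁))) ?_ (z₀ := τ) ?_).mono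
    fun σ hσ => hσ f ⟨hf, hvan⟩)
  · exact (((PF.contDiff hf).comp (pmap_mk (n := n) J).contDiff).differentiable one_ne_zero).comp
      ((differentiable_const a₁).prodMk
        ((((differentiable_const b₁).mul hE).const_smul ζ).prodMk (differentiable_const y₁)))
  · simp only [hτ, mul_smul_comm, mul_one, smul_smul, mul_inv_cancel₀ hne, one_smul, hx₁]
    exact hfne

end Vale.Agent.P002.Global
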