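import Vale.Agent.P002.Global.LowerDim
import Vale.Agent.P002.Global.Propagate

/-! A set of small Hausdorff dimension cannot contain a nonempty Zariski open piece of the
representation space. -/

open Matrix Filter Topology

namespace Vale.Agent.P002.Global

open Vale.Agent.P002.Surface (Mat Tup PF PMap rel)

attribute [local instance] Matrix.linftyOpNormedAddCommGroup Matrix.linftyOpNormedSpace
  Matrix.linftyOpNormedRing Matrix.linftyOpNormedAlgebra

variable {r g s : ℕ}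

lemma exists_poly {k : ℕ} {h : (Fin k → ℂ) → ℂ} (hh : h ∈ PF (Fin k → ℂ)) :
    ∃ p : MvPolynomial (Fin k) ℂ, ∀ v, h v = MvPolynomial.eval v p := by
  refine Algebra.adjoin_induction (p := fun φ _ => ∃ p : MvPolynomial (Fin k) ℂ,
    ∀ v, φ v = MvPolynomial.eval v p) ?_ ?_ ?_ ?_ hh
  · rintro _ ⟨l, rfl⟩
    refine ⟨∑ i, MvPolynomial.C (l (Pi.single i 1)) * MvPolynomial.X i, fun v => ?_⟩
    conv_lhs => rw [show v = ∑ i, v i • (Pi.single i (1 : ℂ) : Fin k → ℂ) by
      funext j; simp [Finset.sum_apply, Pi.single_apply]]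
    simp [map_sum, mul_comm]
  · exact fun c => ⟨MvPolynomial.C c, fun v => by simp⟩
  · rintro a b _ _ ⟨p, hp⟩ ⟨q, hq⟩; exact ⟨p + q, fun v => by simp [hp, hq]⟩
  · rintro a b _ _ ⟨p, hp⟩ ⟨q, hq⟩; exact ⟨p * q, fun v => by simp [hp, hq]⟩

/-- Handles and conjugators of a point of the representation space. -/
def Lift (J : Fin s → Mat r) : Set (Tup g r × (Fin s → Mat r)) :=
  {z | (∀ i, (z.1 i).1.det = 1 ∧ (z.1 i).2.det = 1) ∧ (∀ i, (z.2 i).det = 1) ∧
    rel z.1 * (List.ofFn (bdC J z.2)).prod = 1}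

lemma Lift.mem_hom {J : Fin s → Mat r} {z : Tup g r × (Fin s → Mat r)} (hz : z ∈ Lift J) :
    (z.1, bdC J z.2) ∈ HomC J :=
  ⟨hz.1, fun i => ⟨z.2 i, hz.2.1 i, rfl⟩, hz.2.2⟩

/-- Every nonempty Zariski open piece of the lifted space leaves a set of small dimension. -/
theorem exists_lift_off (hr : 0 < r) {J : Fin s → Mat r} (hJ : ∀ i, (J i).det = 1)
    {E : Set (Tup g r × (Fin s → Mat r))}
    (hE : dimH E < ((2 * ((2 * g + s - 1) * (r ^ 2 - 1)) : ℕ) : ENNReal))
    {h : Tup g r × (Fin s → Mat r) → ℂ} (hh : h ∈ PF _) {z₀ : Tup g r × (Fin s → Mat r)}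
    (hz₀ : z₀ ∈ Lift J) (hh₀ : h z₀ ≠ 0) : ∃ z ∈ Lift J, h z ≠ 0 ∧ z ∉ E := by
  classical
  by_contra! hsub
  let T := (Tup g r × (Fin s → Mat r)) × ℂ
  let e := Module.Basis.equivFunL (Module.finBasis ℂ T)
  let Mf : Tup g r × (Fin s → Mat r) → Mat r := fun z =>
    rel z.1 * (List.ofFn (bdC J z.2)).prod
  have hMf : PMap Mf := pmap_tailP J
  let i₀ : Fin r := ⟨0, hr⟩
  let μ := (Polynomial.nthRootsFinset r (1 : ℂ)).erase 1
  let h' : Tup g r × (Fin s → Mat r) → ℂ :=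
    h * ∏ ω ∈ μ, fun z => Mf z i₀ i₀ - ω
  have hh' : h' ∈ PF _ := (PF _).mul_mem hh ((PF _).prod_mem fun ω _ =>
    (PF _).sub_mem (hMf.entry i₀ i₀) (PF.const ω))
  -- the equations
  let Idx := (Fin g ⊕ Fin g ⊕ Fin s) ⊕ {q : Fin r × Fin r // q ≠ (i₀, i₀)} ⊕ Unit
  let F : Idx → T → ℂ := Sum.elim
    (Sum.elim (fun i x => (x.1.1 i).1.det - 1)
      (Sum.elim (fun i x => (x.1.1 i).2.det - 1) fun i x => (x.1.2 i).det - 1))
    (Sum.elim (fun q x => Mf x.1 q.1.1 q.1.2 - if q.1.1 = q.1.2 then Mf x.1 i₀ i₀ else 0)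
      fun _ x => x.2 * h' x.1 - 1)
  have hF : ∀ q, F q ∈ PF T := by
    rintro ((i | i | i) | q | u)
    · exact (PF T).sub_mem (PMap.det' fun a b =>
        ((Surface.PMap.slot1 i).comp (PMap.fst.comp PMap.fst)).entry a b) (PF.const 1)
    · exact (PF T).sub_mem (PMap.det' fun a b =>
        ((Surface.PMap.slot2 i).comp (PMap.fst.comp PMap.fst)).entry a b) (PF.const 1)
    · exact (PF T).sub_mem (PMap.det' fun a b =>
        ((PMap.proj i).comp (PMap.snd.comp PMap.fst)).entry a b) (PF.const 1)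
    · refine (PF T).sub_mem ((hMf.comp PMap.fst).entry _ _) ?_
      split_ifs
      · exact (hMf.comp PMap.fst).entry _ _
      · exact PF.const 0
    · exact (PF T).sub_mem ((PF T).mul_mem
        (PF.clm (ContinuousLinearMap.snd ℂ (Tup g r × (Fin s → Mat r)) ℂ))
        (PF.comp hh' PMap.fst)) (PF.const 1)
  choose P hP using fun q => exists_poly (PF.comp (hF q) (PMap.clm
    (e.symm : (Fin (Module.finrank ℂ T) → ℂ) →L[ℂ] T)))
  let ι := Fintype.equivFin Idx
  let f : Fin (Fintype.card Idx) → MvPolynomial (Fin (Module.finrank ℂ T)) ℂ := fun k => P (ι.symm k)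
  have hV : ∀ v, v ∈ zeroSet f ↔ ∀ q, F q (e.symm v) = 0 := by
    intro v
    refine ⟨fun hv q => ?_, fun hv k => ?_⟩
    · have := hv (ι q)
      simp only [f, Equiv.symm_apply_apply, ← hP] at this
      exact this
    · simp only [f, ← hP]
      exact hv _
  have hroot : ∀ ω ∈ μ, ω ≠ 1 := fun ω hω => Finset.ne_of_mem_erase hω
  have hne : (zeroSet f).Nonempty := by
    have h1 : Mf z₀ = 1 := hz₀.2.2
    have h0' : h' z₀ ≠ 0 := by
      simp only [h', Pi.mul_apply, Finset.prod_apply]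
      refine mul_ne_zero hh₀ (Finset.prod_ne_zero_iff.2 fun ω hω => ?_)
      simp only [h1, one_apply_eq]
      exact sub_ne_zero.2 (hroot ω hω).symm
    refine ⟨e (z₀, (h' z₀)⁻¹), (hV _).2 ?_⟩
    rw [ContinuousLinearEquiv.symm_apply_apply]
    rintro ((i | i | i) | q | u)
    · simp [F, (hz₀.1 i).1]
    · simp [F, (hz₀.1 i).2]
    · simp [F, hz₀.2.1 i]
    · obtain ⟨⟨a, b⟩, hq⟩ := q
      simp [F, h1, one_apply]
    · simp [F, inv_mul_cancel₀ h0']
  -- the variety lies over `E`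
  let O : Set (Tup g r × (Fin s → Mat r)) := {z | h' z ≠ 0} ∩ E
  let sec : Tup g r × (Fin s → Mat r) → Fin (Module.finrank ℂ T) → ℂ := fun z => e (z, (h' z)⁻¹)
  have hsub' : zeroSet f ⊆ sec '' O := by
    intro v hv
    have hv' := (hV v).1 hv
    set x := e.symm v with hx
    have h0 : x.2 * h' x.1 = 1 := by simpa [F, sub_eq_zero] using hv' (Sum.inr (Sum.inr ()))
    have h0' : h' x.1 ≠ 0 := fun h => by simp [h] at h0
    have hd1 : ∀ i, (x.1.1 i).1.det = 1 := fun i => by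
      simpa [F, sub_eq_zero] using hv' (Sum.inl (Sum.inl i))
    have hd2 : ∀ i, (x.1.1 i).2.det = 1 := fun i => by
      simpa [F, sub_eq_zero] using hv' (Sum.inl (Sum.inr (Sum.inl i)))
    have hd3 : ∀ i, (x.1.2 i).det = 1 := fun i => by
      simpa [F, sub_eq_zero] using hv' (Sum.inl (Sum.inr (Sum.inr i)))
    have hM : Mf x.1 = Mf x.1 i₀ i₀ • (1 : Mat r) := by
      ext a b
      by_cases hab : (a, b) = (i₀, i₀)
      · simp only [Prod.mk.injEq] at hab
        simp [hab.1, hab.2]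
      · have := hv' (Sum.inr (Sum.inl ⟨(a, b), hab⟩))
        simp only [F, Sum.elim_inr, Sum.elim_inl, sub_eq_zero] at this
        rw [this]
        simp [one_apply]
    have hc : Mf x.1 i₀ i₀ ^ r = 1 := by
      have := congrArg Matrix.det hM
      rw [show (Mf x.1).det = 1 from det_tailP hJ (fun i => ⟨hd1 i, hd2 i⟩) hd3, det_smul,
        det_one, Fintype.card_fin, mul_one] at this
      exact this.symm
    have hprod : h x.1 ≠ 0 ∧ ∀ ω ∈ μ, Mf x.1 i₀ i₀ ≠ ω := by
      simp only [h', Pi.mul_apply, Finset.prod_apply, mul_ne_zero_iff, Finset.prod_ne_zero_iff,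
        sub_ne_zero] at h0'
      exact h0'
    have hc1 : Mf x.1 i₀ i₀ = 1 := by
      by_contra hne1
      exact hprod.2 _ (Finset.mem_erase.2 ⟨hne1, (Polynomial.mem_nthRootsFinset hr _).2 hc⟩) rfl
    rw [hc1, one_smul] at hM
    have hE' : x.1 ∈ E := hsub x.1 ⟨fun i => ⟨hd1 i, hd2 i⟩, hd3, hM⟩ hprod.1
    refine ⟨x.1, ⟨h0', hE'⟩, ?_⟩
    have e2 : (h' x.1)⁻¹ = x.2 := (eq_inv_of_mul_eq_one_left h0).symm
    show e (x.1, (h' x.1)⁻¹) = v
    rw [e2, hx, Prod.mk.eta, ContinuousLinearEquiv.apply_symm_apply]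
  have hlip : ∀ z ∈ O, ∃ C : NNReal, ∃ t ∈ 𝓝[O] z, LipschitzOnWith C sec t := by
    intro z hz
    have hd : ContDiffAt ℂ 1 sec z :=
      (e.contDiff.contDiffAt).comp z (contDiffAt_id.prodMk ((PF.contDiff hh').contDiffAt.inv hz.1))
    obtain ⟨C, t, ht, hl⟩ := (hd.restrict_scalars ℝ).exists_lipschitzOnWith
    exact ⟨C, t, nhdsWithin_le_nhds ht, hl⟩
  have h1 := le_dimH_zeroSet f hne
  have h2 : dimH (zeroSet f) ≤ dimH E :=
    ((dimH_mono hsub').trans (dimH_image_le_of_locally_lipschitzOn hlip)).trans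
      (dimH_mono Set.inter_subset_right)
  have hn : Module.finrank ℂ T - Fintype.card Idx = (2 * g + s - 1) * (r ^ 2 - 1) := by
    have e1 : Fintype.card {q : Fin r × Fin r // q ≠ (i₀, i₀)} = r ^ 2 - 1 := by
      simp [Fintype.card_subtype_compl, sq]
    have e2 : Module.finrank ℂ T = (2 * g + s) * r ^ 2 + 1 := by
      simp only [T, Tup, Mat, Module.finrank_prod, Module.finrank_pi_fintype, Module.finrank_matrix,
        Module.finrank_self, Finset.sum_const, Finset.card_univ, Fintype.card_fin, smul_eq_mul]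
      ring
    have e3 : Fintype.card Idx = 2 * g + s + (r ^ 2 - 1) + 1 := by
      simp only [Idx, Fintype.card_sum, Fintype.card_fin, e1, Fintype.card_unit]
      omega
    obtain ⟨N, hN⟩ : ∃ N, r ^ 2 = N + 1 := ⟨r ^ 2 - 1, by have := pow_pos hr 2; omega⟩
    rw [e2, e3, hN, Nat.add_sub_cancel, Nat.sub_mul, one_mul, Nat.mul_add, mul_one]
    omega
  rw [hn] at h1
  exact (h1.trans h2).not_gt hE

end Vale.Agent.P002.Global
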