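import Vale.Agent.P002.Global.Defs
import Vale.Agent.P002.General.Point

/-! Near a representation with an irreducible handle, any other handle can be made simple. -/

open Matrix Filter Topology

namespace Vale.Agent.P002.Global

open Vale.Agent.P002.Surface (Mat Tup rel PMap mul_adj adj_mul det_adj)

attribute [local instance] Matrix.linftyOpNormedAddCommGroup Matrix.linftyOpNormedSpace
  Matrix.linftyOpNormedRing Matrix.linftyOpNormedAlgebra

variable {r g s : ℕ}

lemma eventually_eval_ne {p : Polynomial ℂ} (hp : p ≠ 0) :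
    ∀ᶠ e in 𝓝[≠] (0 : ℂ), p.eval e ≠ 0 :=
  nhdsNE_le_cofinite 0 (show {e : ℂ | p.eval e ≠ 0} ∈ cofinite by
    refine mem_cofinite.2 ((Polynomial.finite_setOfPred_isRoot hp).subset fun e he => ?_)
    simpa using he)

/-- A unimodular matrix near the identity clearing all zero entries. -/
def mix (r : ℕ) (e : ℂ) : Mat r :=
  .of fun i k => if (i : ℕ) = 0 then e ^ (k : ℕ) else (if i = k then 1 else 0) + e ^ (r + k)

lemma mix_det (hr : 0 < r) (e : ℂ) : (mix r e).det = 1 := by
  let Z : Mat r := .of fun i k => if (i : ℕ) = 0 ∧ (k : ℕ) ≠ 0 then e ^ (k : ℕ) else 0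
  let W : Mat r := .of fun k i => if (k : ℕ) = 0 ∧ (i : ℕ) ≠ 0 then e ^ r else 0
  have hZ : General.Strict Z := fun i j hij => by
    rw [Fin.le_def] at hij
    simp only [Z, of_apply, ite_eq_right_iff, and_imp]
    intro h1 h2; omega
  have hW : General.Strict W := fun i j hij => by
    rw [Fin.le_def] at hij
    simp only [W, of_apply, ite_eq_right_iff, and_imp]
    intro h1 h2; omega
  have e1 : mix r e = (1 + W)ᵀ * (1 + Z) := by
    ext i k
    rw [transpose_add, transpose_one, add_mul, one_mul, Matrix.add_apply, Matrix.mul_apply,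
      Finset.sum_eq_single (⟨0, hr⟩ : Fin r)]
    · simp only [mix, Z, W, of_apply, transpose_apply, Matrix.add_apply, Matrix.one_apply]
      rcases eq_or_ne (i : ℕ) 0 with hi | hi <;> rcases eq_or_ne (k : ℕ) 0 with hk | hk <;>
        simp [hi, hk, Fin.ext_iff, pow_add, @eq_comm ℕ 0]
    · intro l _ hl
      have : (l : ℕ) ≠ 0 := fun h => hl (Fin.ext h)
      simp [W, this]
    · simp
  rw [e1, det_mul, det_transpose, General.det_one_add_strict hW, General.det_one_add_strict hZ,
    one_mul]

lemma mix_zero (hr : 0 < r) : mix r 0 = 1 := by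
  ext i k
  simp only [mix, of_apply, Matrix.one_apply]
  rcases eq_or_ne (i : ℕ) 0 with hi | hi
  · rcases eq_or_ne (k : ℕ) 0 with hk | hk <;> simp [hi, hk, Fin.ext_iff, @eq_comm ℕ 0]
  · rw [if_neg hi, zero_pow (by omega), add_zero]

lemma eventually_mix_entry {β : Mat r} (hβ : β.det ≠ 0) (i j : Fin r) :
    ∀ᶠ e in 𝓝[≠] (0 : ℂ), (mix r e * β) i j ≠ 0 := by
  obtain ⟨k, hk⟩ : ∃ k, β k j ≠ 0 := by
    by_contra! h
    exact hβ (det_eq_zero_of_column_eq_zero j h)
  let c : Polynomial ℂ := if (i : ℕ) = 0 then 0 else Polynomial.C (β i j)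
  let p : Polynomial ℂ := c + ∑ l : Fin r, Polynomial.C (β l j) *
    Polynomial.X ^ ((if (i : ℕ) = 0 then 0 else r) + (l : ℕ))
  have hp : p ≠ 0 := by
    intro h
    have := congrArg (fun q => q.coeff ((if (i : ℕ) = 0 then 0 else r) + (k : ℕ))) h
    simp only [p, c, Polynomial.coeff_add, Polynomial.finsetSum_coeff, Polynomial.coeff_C_mul_X_pow,
      Nat.add_left_cancel_iff, Fin.val_inj, Finset.sum_ite_eq, Finset.mem_univ, if_true,
      Polynomial.coeff_zero] at this
    have hr : 0 < r := i.pos
    split_ifs at this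
    · simp [hk] at this
    · simp [Polynomial.coeff_C, hr.ne', hk] at this
  filter_upwards [eventually_eval_ne hp] with e he h0
  refine he (Eq.trans ?_ h0)
  simp only [p, c, Matrix.mul_apply, mix, of_apply, Polynomial.eval_add, Polynomial.eval_finsetSum,
    Polynomial.eval_mul, Polynomial.eval_C, Polynomial.eval_pow, Polynomial.eval_X]
  by_cases hi : (i : ℕ) = 0
  · simp [hi, mul_comm]
  · simp only [hi, if_false, Polynomial.eval_C, add_mul, Finset.sum_add_distrib, ite_mul, one_mul,
      zero_mul, Finset.sum_ite_eq, Finset.mem_univ, if_true]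
    simp only [mul_comm]

/-- Near any unimodular pair there is a simple one. -/
lemma exists_simple_pair (hr : 0 < r) {P : Mat r × Mat r} (ha : P.1.det = 1) (hb : P.2.det = 1)
    {W : Set (Mat r × Mat r)} (hW : W ∈ 𝓝 P) :
    ∃ Q ∈ W, Q.1.det = 1 ∧ Q.2.det = 1 ∧ Simple Q.1.adjugate Q.2 := by
  obtain ⟨Wa, hWa, Wb, hWb, hsub⟩ := mem_nhds_prod_iff.1 hW
  obtain ⟨S, T, hS, hST, hT, -⟩ := General.exists_jordan P.1
  have htri : T.BlockTriangular id := by
    intro i j hij
    by_contra hne
    have hij' : j < i := hij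
    have := (hT i j hij'.ne' hne).1
    rw [Fin.lt_def] at hij'; omega
  have hTd : T.det = 1 := by
    rw [hST, det_mul, det_mul, det_adj hS, hS] at ha
    simpa using ha
  let c : Fin r → ℂ := fun i => (i : ℕ) - (∑ k : Fin r, ((k : ℕ) : ℂ)) / r
  let D : ℂ → Mat r := fun t => diagonal fun i => Complex.exp (t * c i)
  have hD : ∀ t, (D t).det = 1 := by
    intro t
    have hc : ∑ i, c i = 0 := by
      have : (r : ℂ) ≠ 0 := Nat.cast_ne_zero.2 hr.ne'
      simp only [c, Finset.sum_sub_distrib, Finset.sum_const, Finset.card_univ, Fintype.card_fin,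
        nsmul_eq_mul]
      rw [mul_div_cancel₀ _ this, sub_self]
    simp only [D, det_diagonal, ← Complex.exp_sum, ← Finset.mul_sum, hc, mul_zero, Complex.exp_zero]
  have hdiag : ∀ i, T i i ≠ 0 := by
    intro i h
    rw [det_of_isUpperTriangular htri] at hTd
    rw [Finset.prod_eq_zero (f := fun i => T i i) (Finset.mem_univ i) h] at hTd
    exact zero_ne_one hTd
  have hne : ∀ᶠ t in 𝓝[≠] (0 : ℂ), ∀ i j, i ≠ j →
      T i i * Complex.exp (t * c i) ≠ T j j * Complex.exp (t * c j) := by
    refine eventually_all.2 fun i => eventually_all.2 fun j => ?_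
    rcases eq_or_ne i j with rfl | hij
    · exact Eventually.of_forall fun _ h => absurd rfl h
    simp only [hij, ne_eq, not_false_eq_true, forall_const]
    have hd : HasDerivAt (fun t : ℂ => T i i * Complex.exp (t * c i) - T j j * Complex.exp (t * c j))
        (T i i * c i - T j j * c j) 0 := by
      have h : ∀ k, HasDerivAt (fun t : ℂ => T k k * Complex.exp (t * c k)) (T k k * c k) 0 :=
        fun k => by
          simpa using (((hasDerivAt_id (0 : ℂ)).mul_const (c k)).cexp.const_mul (T k k))
      exact (h i).sub (h j)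
    by_cases he : T i i = T j j
    · have hcne : T i i * c i - T j j * c j ≠ 0 := by
        rw [he, ← mul_sub]
        refine mul_ne_zero (hdiag j) ?_
        simp only [c, sub_sub_sub_cancel_right, sub_ne_zero]
        exact fun h => hij (Fin.ext (Nat.cast_injective h))
      filter_upwards [hd.eventually_ne (c := (0 : ℂ)) hcne] with t ht h
      exact ht (sub_eq_zero.2 h)
    · have : ∀ᶠ t in 𝓝 (0 : ℂ),
          T i i * Complex.exp (t * c i) - T j j * Complex.exp (t * c j) ≠ 0 :=
        hd.continuousAt.eventually_ne (by simpa [sub_eq_zero] using he)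
      filter_upwards [this.filter_mono nhdsWithin_le_nhds] with t ht h
      exact ht (sub_eq_zero.2 h)
  have hcont : Continuous fun t => S * (T * D t) * S.adjugate := by
    refine (continuous_const.mul (continuous_const.mul ?_)).mul continuous_const
    exact Continuous.matrix_diagonal (continuous_pi fun i => by fun_prop)
  have hnear : ∀ᶠ t in 𝓝[≠] (0 : ℂ), S * (T * D t) * S.adjugate ∈ Wa := by
    have h0 : S * (T * D 0) * S.adjugate = P.1 := by
      simp [D, ← hST]
    exact Eventually.filter_mono nhdsWithin_le_nhds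
      (hcont.continuousAt.preimage_mem_nhds (by rw [h0]; exact hWa))
  obtain ⟨t, hta, htne⟩ := (hnear.and hne).exists
  set U := T * D t with hUd
  have hUtri : U.BlockTriangular id := htri.mul (blockTriangular_diagonal _)
  have hUinj : ∀ i j, U i i = U j j → i = j := by
    intro i j h
    by_contra hij
    exact htne i j hij (by simpa [U, D, Matrix.mul_diagonal] using h)
  obtain ⟨X, hX, hUX, -, -, -⟩ := General.diagonalise (R := ⊤) hUtri hUinj
  set l : Fin r → ℂ := fun i => U i i with hl
  have hUd' : U.det = 1 := by rw [hUd, det_mul, hTd, hD, one_mul]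
  have hl0 : ∀ i, l i ≠ 0 := fun i h => by
    rw [det_of_isUpperTriangular hUtri] at hUd'
    rw [Finset.prod_eq_zero (f := fun i => U i i) (Finset.mem_univ i) h] at hUd'
    exact zero_ne_one hUd'
  set A := S * (T * D t) * S.adjugate with hA
  have hAd : A.det = 1 := by rw [hA, det_mul, det_mul, hS, det_adj hS, hUd', one_mul, one_mul]
  set V := S * X with hV
  have hVd : V.det = 1 := by rw [hV, det_mul, hS, hX, one_mul]
  have hAV : A = V * diagonal l * V.adjugate := by
    rw [hA, hV, adjugate_mul_distrib, ← hUd, hUX]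
    simp only [mul_assoc]
  have hAa : A.adjugate = V * diagonal (fun i => (l i)⁻¹) * V.adjugate := by
    refine General.adj_eq_of_mul_eq_one hAd ?_
    have hll : diagonal l * diagonal (fun i => (l i)⁻¹) = 1 := by
      rw [diagonal_mul_diagonal, ← diagonal_one]
      exact congrArg diagonal (funext fun i => mul_inv_cancel₀ (hl0 i))
    calc A * (V * diagonal (fun i => (l i)⁻¹) * V.adjugate)
        = V * (diagonal l * ((V.adjugate * V) * diagonal (fun i => (l i)⁻¹))) * V.adjugate := by
          rw [hAV]; simp only [mul_assoc]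
      _ = 1 := by rw [adj_mul hVd, one_mul, hll, mul_one, mul_adj hVd]
  set β := V.adjugate * P.2 * V with hβ
  have hβd : β.det ≠ 0 := by rw [hβ, det_mul, det_mul, det_adj hVd, hb, hVd]; simp
  let B : ℂ → Mat r := fun e => V * (mix r e * β) * V.adjugate
  have hBc : Continuous B := by
    refine (continuous_const.mul (Continuous.mul ?_ continuous_const)).mul continuous_const
    refine continuous_matrix fun i k => ?_
    simp only [mix, of_apply]
    split_ifs <;> fun_prop
  have hB0 : B 0 = P.2 := by
    calc B 0 = V * β * V.adjugate := by simp only [B, mix_zero hr, one_mul]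
      _ = V * V.adjugate * P.2 * (V * V.adjugate) := by simp only [hβ, mul_assoc]
      _ = P.2 := by rw [mul_adj hVd, one_mul, mul_one]
  have hev : ∀ᶠ e in 𝓝[≠] (0 : ℂ), B e ∈ Wb ∧ ∀ i j, (mix r e * β) i j ≠ 0 :=
    (Eventually.filter_mono nhdsWithin_le_nhds
      (hBc.continuousAt.preimage_mem_nhds (by rw [hB0]; exact hWb))).and
      (eventually_all.2 fun i => eventually_all.2 fun j =>
        eventually_mix_entry hβd i j)
  obtain ⟨e, heW, he0⟩ := hev.exists
  refine ⟨(A, B e), hsub ⟨hta, heW⟩, hAd, ?_, V, V.adjugate, fun i => (l i)⁻¹, adj_mul hVd, hAa,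
    fun i j h => hUinj i j (inv_injective h), fun i => inv_ne_zero (hl0 i), ?_⟩
  · simp only [B, det_mul, hVd, mix_det hr, det_adj hVd, one_mul, mul_one]
    rw [hβ, det_mul, det_mul, det_adj hVd, hb, hVd, one_mul, one_mul]
  · have he' : V.adjugate * B e * V = mix r e * β := by
      calc V.adjugate * B e * V = (V.adjugate * V) * (mix r e * β) * (V.adjugate * V) := by
            simp only [B, mul_assoc]
        _ = _ := by rw [adj_mul hVd, one_mul, mul_one]
    intro S' hne' huniv
    obtain ⟨i, hi⟩ := hne'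
    obtain ⟨m, hm⟩ : ∃ m, m ∉ S' := by
      by_contra! h
      exact huniv (Finset.eq_univ_iff_forall.2 h)
    refine ⟨m, hm, i, hi, ?_⟩
    rw [he']
    exact he0 m i

/-- Irreducibility of a pair is open. -/
lemma irrPair_open {P : Mat r × Mat r} (hP : IrrPair P) : ∀ᶠ Q in 𝓝 P, IrrPair Q := by
  classical
  let M : Submonoid (Mat r) := Submonoid.closure ({P.1, P.2} : Set (Mat r))
  have hspan : Submodule.span ℂ (M : Set (Mat r)) = ⊤ := by
    have h : Subalgebra.toSubmodule (Algebra.adjoin ℂ ({P.1, P.2} : Set (Mat r))) = ⊤ := by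
      rw [show Algebra.adjoin ℂ ({P.1, P.2} : Set (Mat r)) = ⊤ from hP, Algebra.top_toSubmodule]
    rwa [Algebra.adjoin_eq_span] at h
  obtain ⟨w, hw, hwspan, hwli⟩ := exists_linearIndependent ℂ (M : Set (Mat r))
  rw [hspan] at hwspan
  have hword : ∀ x ∈ M, ∃ f : Mat r × Mat r → Mat r, Continuous f ∧ f P = x ∧
      ∀ Q, f Q ∈ Algebra.adjoin ℂ ({Q.1, Q.2} : Set (Mat r)) := by
    intro x hx
    induction hx using Submonoid.closure_induction with
    | mem x hx =>
      rcases hx with rfl | rfl
      · exact ⟨Prod.fst, continuous_fst, rfl, fun Q => Algebra.subset_adjoin (by simp)⟩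
      · exact ⟨Prod.snd, continuous_snd, rfl, fun Q => Algebra.subset_adjoin (by simp)⟩
    | one => exact ⟨fun _ => 1, continuous_const, rfl, fun Q => one_mem _⟩
    | mul x y _ _ hx hy =>
      obtain ⟨f, hf, hfx, hf'⟩ := hx
      obtain ⟨f₂, hf₂, hfy, hf₂'⟩ := hy
      exact ⟨fun Q => f Q * f₂ Q, hf.mul hf₂, by simp only [hfx, hfy],
        fun Q => mul_mem (hf' Q) (hf₂' Q)⟩
  choose f hfc hfP hfA using fun x : w => hword x (hw x.2)
  have : Fintype w := hwli.setFinite.fintype
  have hev : ∀ᶠ Q in 𝓝 P, LinearIndependent ℂ fun x : w => f x Q := by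
    have h0 : LinearIndependent ℂ fun x : w => f x P := by
      simp only [hfP]; exact hwli
    exact (continuous_pi hfc).continuousAt.eventually
      (LinearIndependent.eventually (f := fun x : w => f x P) h0)
  have hcard : Fintype.card w = Module.finrank ℂ (Mat r) := by
    rw [Module.finrank_eq_card_basis (Module.Basis.mk hwli (by
      rw [Subtype.range_coe_subtype]; exact hwspan.ge))]
  filter_upwards [hev] with Q hQ
  have htop := hQ.span_eq_top_of_card_eq_finrank' hcard
  refine Algebra.toSubmodule_eq_top.1 (top_le_iff.1 (htop ▸ Submodule.span_le.2 ?_))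
  rintro _ ⟨x, rfl⟩
  exact hfA x Q

lemma comm_smul (lam mu : ℂ) (P : Mat r × Mat r) :
    Surface.comm (lam • P.1, mu • P.2) =
      (lam * lam ^ (r - 1) * (mu * mu ^ (r - 1))) • Surface.comm P := by
  simp only [Surface.comm, adjugate_smul, Fintype.card_fin, smul_mul_assoc, mul_smul_comm, smul_smul]
  congr 1
  ring

lemma comm_det {P : Mat r × Mat r} (ha : P.1.det = 1) (hb : P.2.det = 1) : (Surface.comm P).det = 1 := by
  simp [Surface.comm, det_mul, ha, hb, det_adjugate]

/-- A subspace containing the derivatives of the commutator at an irreducible pair is everything. -/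
lemma top_of_mem (hr : 0 < r) {a b : Mat r} (ha : a.det = 1) (hb : b.det = 1)
    (hP : IrrPair (a, b)) {R : Submodule ℂ (Mat r)}
    (hcR : a * b * a.adjugate * b.adjugate ∈ R)
    (hu : ∀ u : Mat r, u.trace = 0 → a * (u * b - b * u) * a.adjugate * b.adjugate ∈ R)
    (hv : ∀ v : Mat r, v.trace = 0 →
      a * b * (v * a.adjugate - a.adjugate * v) * b.adjugate ∈ R) : R = ⊤ := by
  have hA := mul_adj ha
  have hA' := adj_mul ha
  have hB := mul_adj hb
  have hB' := adj_mul hb
  by_contra hne
  obtain ⟨L, hL0, hLR⟩ := Submodule.exists_dual_map_eq_bot_of_lt_top (lt_top_iff_ne_top.2 hne)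
    inferInstance
  have hLm : ∀ X ∈ R, L X = 0 := fun X hX => by
    have : L X ∈ R.map L := Submodule.mem_map_of_mem hX
    rwa [hLR, Submodule.mem_bot] at this
  -- the functional pulled back to the middle of the commutator
  let L' : Mat r →ₗ[ℂ] ℂ :=
    L.comp ((LinearMap.mulLeft ℂ (a * b)).comp (LinearMap.mulRight ℂ (a.adjugate * b.adjugate)))
  have hL' : ∀ X, L' X = L (a * b * (X * (a.adjugate * b.adjugate))) := fun X => rfl
  let Z : Mat r := .of fun p q => L' (Matrix.single q p 1)
  have hLZ : ∀ X, L' X = (Z * X).trace := by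
    intro X
    conv_lhs => rw [matrix_eq_sum_single X]
    simp only [map_sum, trace, diag, Matrix.mul_apply, Z, of_apply]
    rw [Finset.sum_comm]
    refine Finset.sum_congr rfl fun q _ => Finset.sum_congr rfl fun p _ => ?_
    rw [show Matrix.single p q (X p q) = X p q • Matrix.single p q (1 : ℂ) by simp, map_smul,
      smul_eq_mul, mul_comm]
  have hZ1 : Z.trace = 0 := by
    have h := hLZ 1
    rw [mul_one, hL', one_mul, ← mul_assoc] at h
    rw [← h]
    exact hLm _ hcR
  have hgen : ∀ (U M : Mat r), U * M = 1 → M * U = 1 →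
      (∀ u : Mat r, (Z * (M * u * U - u)).trace = 0) → Commute Z U := by
    intro U M hUM hMU h
    have e : U * Z * M = Z := by
      refine Matrix.ext_iff_trace_mul_right.2 fun u => ?_
      have h1 := h u
      rw [mul_sub, trace_sub, sub_eq_zero] at h1
      rw [← h1, show Z * (M * u * U) = Z * M * u * U by simp only [mul_assoc],
        trace_mul_comm (Z * M * u) U]
      simp only [mul_assoc]
    calc Z * U = U * Z * M * U := by rw [e]
      _ = U * Z := by rw [mul_assoc, hMU, mul_one]
  have hsplit : ∀ (q : Mat r → Mat r), (∀ X Y, q (X + Y) = q X + q Y) →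
      (∀ (t : ℂ), q (t • 1) = 0) → (∀ u : Mat r, u.trace = 0 → q u ∈ R) → ∀ u, q u ∈ R := by
    intro q hadd hone hq u
    have hr' : (r : ℂ) ≠ 0 := Nat.cast_ne_zero.2 hr.ne'
    have e : u = (u - (u.trace / r) • (1 : Mat r)) + (u.trace / r) • (1 : Mat r) := by simp
    rw [e, hadd, hone, add_zero]
    refine hq _ ?_
    simp [trace_sub, trace_smul, hr']
  have hZb : Commute Z b := by
    refine hgen b b.adjugate hB hB' fun u => ?_
    have h := hsplit (fun u => a * (u * b - b * u) * a.adjugate * b.adjugate)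
      (fun X Y => by noncomm_ring) (fun t => by simp) hu u
    rw [← hLZ, hL']
    have e : a * b * ((b.adjugate * u * b - u) * (a.adjugate * b.adjugate)) =
        a * (u * b - b * u) * a.adjugate * b.adjugate := by
      calc _ = a * ((b * b.adjugate) * u * b - b * u) * a.adjugate * b.adjugate := by
            simp only [sub_mul, mul_sub, mul_assoc]
        _ = _ := by rw [hB, one_mul]
    rw [e]
    exact hLm _ h
  have hZa : Commute Z a := by
    refine hgen a a.adjugate hA hA' fun u => ?_
    have h := hsplit (fun u => a * b * (u * a.adjugate - a.adjugate * u) * b.adjugate)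
      (fun X Y => by noncomm_ring) (fun t => by simp) hv u
    rw [← hLZ, hL']
    have e : a * b * ((a.adjugate * u * a - u) * (a.adjugate * b.adjugate)) =
        -(a * b * (u * a.adjugate - a.adjugate * u) * b.adjugate) := by
      calc _ = a * b * (a.adjugate * u * (a * a.adjugate) - u * a.adjugate) * b.adjugate := by
            simp only [sub_mul, mul_sub, mul_assoc]
        _ = _ := by rw [hA, mul_one]; noncomm_ring
    rw [e, map_neg, hLm _ h, neg_zero]
  have hcen : ∀ X : Mat r, Commute Z X := by
    intro X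
    have hle : Algebra.adjoin ℂ ({a, b} : Set (Mat r)) ≤ Subalgebra.centralizer ℂ {Z} := by
      refine Algebra.adjoin_le ?_
      rintro x (rfl | rfl) <;> rintro y ⟨⟩
      exacts [hZa, hZb]
    exact (hle (by rw [show Algebra.adjoin ℂ ({a, b} : Set (Mat r)) = ⊤ from hP]; trivial)) Z rfl
  obtain ⟨z, hz⟩ := mem_range_scalar_of_commute_single (M := Z) fun i j _ => (hcen _).symm
  have hz0 : z = 0 := by
    rw [← hz] at hZ1
    simpa [trace, hr.ne'] using hZ1
  refine hL0 (LinearMap.ext fun Y => ?_)
  have h := hLZ (b.adjugate * a.adjugate * Y * b * a)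
  rw [show Z = 0 by rw [← hz, hz0, map_zero], zero_mul, trace_zero, hL'] at h
  rw [LinearMap.zero_apply, ← h]
  congr 1
  calc Y = (a * ((b * b.adjugate) * a.adjugate)) * Y * (b * (a * a.adjugate) * b.adjugate) := by
        rw [hB, one_mul, hA, mul_one, hB, one_mul, mul_one]
    _ = _ := by simp only [mul_assoc]

lemma deriv_line {F : Mat r × Mat r → Mat r} {D : (Mat r × Mat r) →L[ℂ] Mat r}
    {P : Mat r × Mat r} (h : HasFDerivAt F D P) (w : Mat r × Mat r) {v : Mat r}
    (hv : HasDerivAt (fun z : ℂ => F (P + z • w)) v 0) : v ∈ D.range := by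
  have hl : HasDerivAt (fun z : ℂ => P + z • w) w 0 :=
    (((hasDerivAt_id (0 : ℂ)).smul_const w).const_add P).congr_deriv (one_smul ℂ w)
  have h1 : HasDerivAt (F ∘ fun z : ℂ => P + z • w) (D w) 0 :=
    h.comp_hasDerivAt_of_eq (0 : ℂ) hl (by simp)
  exact ⟨w, h1.unique hv⟩

/-- The differential of the commutator at an irreducible pair is onto. -/
lemma comm_surj (hr : 0 < r) {a b : Mat r} (ha : a.det = 1) (hb : b.det = 1)
    (hP : IrrPair (a, b)) {D : (Mat r × Mat r) →L[ℂ] Mat r}
    (hD : HasFDerivAt (fun Q : Mat r × Mat r => Surface.comm Q) D (a, b)) : D.range = ⊤ := by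
  set c := Surface.comm (a, b) with hc
  have hcR : c ∈ D.range := by
    have h : HasDerivAt (fun z : ℂ => ((1 + z) ^ r) • c) ((r : ℂ) • c) 0 := by
      have := ((((hasDerivAt_id (0 : ℂ)).const_add 1).fun_pow r).smul_const c)
      simp only [id, add_zero, one_pow, mul_one] at this
      exact this
    have hr' : (r : ℂ) ≠ 0 := Nat.cast_ne_zero.2 hr.ne'
    have : (r : ℂ) • c ∈ D.range := by
      refine deriv_line hD (a, 0) (h.congr_of_eventuallyEq (Eventually.of_forall fun z => ?_))
      have e : ((a, b) : Mat r × Mat r) + z • (a, 0) = ((1 + z) • a, (1 : ℂ) • b) := by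
        simp [add_smul]
      simp only [e]
      rw [comm_smul (1 + z) 1 (a, b)]
      congr 1
      rw [one_pow, mul_one, mul_one, ← pow_succ', Nat.sub_add_cancel hr]
    simpa [smul_smul, hr'] using D.range.smul_mem (r : ℂ)⁻¹ this
  have hu : ∀ u : Mat r, u.trace = 0 →
      a * (u * b - b * u) * a.adjugate * b.adjugate ∈ D.range := by
    intro u hu
    refine deriv_line hD (a * u, 0) ?_
    have h1 := (((Surface.hasDerivAt_line a u).mul_const b).fun_mul
      (Surface.hasDerivAt_adjugate_line a hu)).mul_const b.adjugate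
    simp only [zero_smul, add_zero, mul_one] at h1
    refine (h1.congr_deriv ?_).congr_of_eventuallyEq (Eventually.of_forall fun z => ?_)
    · simp only [mul_sub, sub_mul, mul_neg, mul_assoc, ← sub_eq_add_neg]
    · simp only [Surface.comm, Prod.smul_mk, Prod.mk_add_mk, smul_zero, add_zero, mul_add, mul_one,
        mul_smul_comm]
  have hv : ∀ v : Mat r, v.trace = 0 →
      a * b * (v * a.adjugate - a.adjugate * v) * b.adjugate ∈ D.range := by
    intro v hv
    refine deriv_line hD (0, b * v) ?_
    have h1 := ((((Surface.hasDerivAt_line b v).const_mul a).mul_const a.adjugate)).fun_mul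
      (Surface.hasDerivAt_adjugate_line b hv)
    simp only [zero_smul, add_zero, mul_one] at h1
    refine (h1.congr_deriv ?_).congr_of_eventuallyEq (Eventually.of_forall fun z => ?_)
    · simp only [mul_sub, sub_mul, mul_neg, mul_assoc, ← sub_eq_add_neg]
    · simp only [Surface.comm, Prod.smul_mk, Prod.mk_add_mk, smul_zero, add_zero, mul_add, mul_one,
        mul_smul_comm]
  exact top_of_mem hr ha hb hP hcR hu hv

lemma continuousAt_unitDet {K : Mat r} (hK : K.det = 1) :
    ContinuousAt (General.unitDet (r := r)) K := by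
  have hdet : Continuous fun K : Mat r => K.det := continuous_id.matrix_det
  have hlog : ContinuousAt Complex.log K.det :=
    continuousAt_clog (by simp [Complex.slitPlane, hK])
  have h1 : ContinuousAt (fun K : Mat r => Complex.log K.det) K :=
    ContinuousAt.comp (g := Complex.log) hlog hdet.continuousAt
  have h2 : ContinuousAt (fun K : Mat r => Complex.exp (-Complex.log K.det / r)) K :=
    ContinuousAt.comp (g := Complex.exp) Complex.continuous_exp.continuousAt (h1.neg.div_const _)
  exact h2.smul continuousAt_id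

/-- Pairs near a unimodular one with commutator of determinant one can be normalised. -/
lemma normalise (hr : 0 < r) {a b : Mat r} (ha : a.det = 1) (hb : b.det = 1)
    {W : Set (Mat r × Mat r)} (hW : W ∈ 𝓝 (a, b)) :
    ∀ᶠ Q in 𝓝 (a, b), (Surface.comm Q).det = 1 →
      ∃ Q' ∈ W, Q'.1.det = 1 ∧ Q'.2.det = 1 ∧ Surface.comm Q' = Surface.comm Q := by
  let N : Mat r × Mat r → Mat r × Mat r := fun Q => (General.unitDet Q.1, General.unitDet Q.2)
  have hNc : ContinuousAt N (a, b) := by
    have h1 := continuousAt_unitDet ha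
    have h2 := continuousAt_unitDet hb
    exact ContinuousAt.prodMk (ContinuousAt.comp (g := General.unitDet) (x := ((a, b) : Mat r × Mat r)) h1 continuousAt_fst)
      (ContinuousAt.comp (g := General.unitDet) (x := ((a, b) : Mat r × Mat r)) h2 continuousAt_snd)
  have hN0 : N (a, b) = (a, b) := by simp [N, General.unitDet, ha, hb]
  let d : Mat r × Mat r → ℂ := fun Q => Q.1.det * Q.2.det
  have hdc : Continuous d :=
    (continuous_id.matrix_det.comp continuous_fst).mul (continuous_id.matrix_det.comp continuous_snd)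
  have hd1 : ∀ᶠ Q in 𝓝 (a, b), N Q ∈ W ∧ d Q ≠ 0 ∧
      ∀ z : ℂ, z ^ r = 1 → z = d Q → z = 1 := by
    have hd0 : d (a, b) = 1 := by simp [d, ha, hb]
    have hroots : ∀ᶠ z in 𝓝 (1 : ℂ), z ^ r = 1 → z = 1 := by
      have hp : (Polynomial.X ^ r - 1 : Polynomial ℂ) ≠ 0 :=
        Polynomial.X_pow_sub_C_ne_zero hr 1
      have hfin := (Polynomial.finite_setOfPred_isRoot hp).sdiff (t := {1})
      filter_upwards [hfin.isClosed.isOpen_compl.mem_nhds (by simp)] with z hz hzr
      by_contra hne
      exact hz ⟨by simp [hzr], hne⟩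
    refine (hNc.eventually (by rw [hN0]; exact hW)).and ((hdc.continuousAt.eventually_ne
      (by rw [hd0]; exact one_ne_zero)).and ?_)
    have := hdc.continuousAt.eventually (by rw [hd0]; exact hroots)
    filter_upwards [this] with Q hQ z hz1 hz2
    subst hz2
    exact hQ hz1
  filter_upwards [hd1] with Q hQ hCd
  obtain ⟨hQW, hQ0, hQ1⟩ := hQ
  obtain ⟨hQa, hQb⟩ := mul_ne_zero_iff.1 hQ0
  have hd : ∀ K : Mat r, K.det ≠ 0 → (General.unitDet K).det = 1 := fun K hK => by
    rw [General.unitDet, det_smul, Fintype.card_fin, ← Complex.exp_nat_mul,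
      mul_div_cancel₀ _ (by exact_mod_cast hr.ne'), Complex.exp_neg, Complex.exp_log hK,
      inv_mul_cancel₀ hK]
  refine ⟨N Q, hQW, hd _ hQa, hd _ hQb, ?_⟩
  have hone : d Q = 1 := by
    refine hQ1 _ ?_ rfl
    have h : (Surface.comm Q).det = (Q.1.det * Q.2.det) ^ r := by
      simp only [Surface.comm, det_mul, det_adjugate, Fintype.card_fin, mul_pow]
      obtain ⟨k, rfl⟩ : ∃ k, r = k + 1 := ⟨r - 1, by omega⟩
      simp only [Nat.add_sub_cancel]
      ring
    rw [← h, hCd]
  simp only [N, General.unitDet]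
  rw [comm_smul _ _ Q, ← pow_succ', ← pow_succ', Nat.sub_add_cancel hr, ← Complex.exp_nat_mul,
    ← Complex.exp_nat_mul, mul_div_cancel₀ _ (by exact_mod_cast hr.ne'),
    mul_div_cancel₀ _ (by exact_mod_cast hr.ne'), Complex.exp_neg, Complex.exp_neg,
    Complex.exp_log hQa, Complex.exp_log hQb, ← mul_inv,
    show Q.1.det * Q.2.det = 1 from hone, inv_one, one_smul]

/-- The commutator map is open at an irreducible pair. -/
lemma comm_nhds (hr : 0 < r) {P : Mat r × Mat r} (ha : P.1.det = 1) (hb : P.2.det = 1)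
    (hP : IrrPair P) {W : Set (Mat r × Mat r)} (hW : W ∈ 𝓝 P) :
    ∀ᶠ C in 𝓝 (Surface.comm P), C.det = 1 →
      ∃ Q ∈ W, Q.1.det = 1 ∧ Q.2.det = 1 ∧ Surface.comm Q = C := by
  obtain ⟨a, b⟩ := P
  have hF : ContDiff ℂ 1 (fun Q : Mat r × Mat r => Surface.comm Q) :=
    (((PMap.fst.mul PMap.snd).mul PMap.fst.adjugate).mul PMap.snd.adjugate).contDiff
  have hs := hF.contDiffAt.hasStrictFDerivAt (x := (a, b)) one_ne_zero
  have hmap := hs.map_nhds_eq_of_surj (comm_surj hr ha hb hP hs.hasFDerivAt)
  have h : ∀ᶠ C in map (fun Q : Mat r × Mat r => Surface.comm Q) (𝓝 (a, b)), C.det = 1 →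
      ∃ Q ∈ W, Q.1.det = 1 ∧ Q.2.det = 1 ∧ Surface.comm Q = C :=
    eventually_map.2 (normalise hr ha hb hW)
  exact h.filter_mono hmap.ge

/-- Near a representation with an irreducible handle `i`, another handle is simple. -/
theorem exists_simple_near (hr : 2 ≤ r) {J : Fin s → Mat r} {x : Tup g r × (Fin s → Mat r)}
    (hx : x ∈ HomC J) {i j : Fin g} (hij : i ≠ j) (hi : IrrPair (x.1 i))
    {U : Set (Tup g r × (Fin s → Mat r))} (hU : U ∈ 𝓝 x) :
    ∃ y ∈ U, y ∈ HomC J ∧ IrrPair (y.1 i) ∧ Simple (y.1 j).1.adjugate (y.1 j).2 := by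
  classical
  have hr0 : 0 < r := by omega
  obtain ⟨hdet, hcls, hrel⟩ := hx
  let upd : (Mat r × Mat r) × (Mat r × Mat r) → Tup g r × (Fin s → Mat r) :=
    fun p => (Function.update (Function.update x.1 j p.1) i p.2, x.2)
  have hupd : Continuous upd := by
    refine Continuous.prodMk ?_ continuous_const
    exact ((continuous_const (y := x.1)).update j continuous_fst).update i continuous_snd
  have hupd0 : upd (x.1 j, x.1 i) = x := by simp [upd]
  obtain ⟨Wj, hWj, Wi, hWi, hsub⟩ := mem_nhds_prod_iff.1
    (hupd.continuousAt.preimage_mem_nhds (by rw [hupd0]; exact hU))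
  have hsolve := comm_nhds hr0 (hdet i).1 (hdet i).2 hi (inter_mem hWi (irrPair_open hi))
  let pre : Mat r × Mat r → Mat r := fun Q =>
    (((List.finRange g).take i).map fun l => Surface.comm (Function.update x.1 j Q l)).prod
  let suf : Mat r × Mat r → Mat r := fun Q =>
    (((List.finRange g).drop (i + 1)).map fun l => Surface.comm (Function.update x.1 j Q l)).prod *
      (List.ofFn x.2).prod
  have hcomm : Continuous (Surface.comm : Mat r × Mat r → Mat r) :=
    ((((PMap.fst.mul PMap.snd).mul PMap.fst.adjugate).mul PMap.snd.adjugate).contDiff).continuous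
  have hl : ∀ l, Continuous fun Q => Surface.comm (Function.update x.1 j Q l) := fun l =>
    hcomm.comp ((continuous_apply l).comp ((continuous_const (y := x.1)).update j continuous_id))
  have hadj : Continuous (adjugate : Mat r → Mat r) := continuous_id.matrix_adjugate
  let C : Mat r × Mat r → Mat r := fun Q => (pre Q).adjugate * (suf Q).adjugate
  have hC : Continuous C :=
    (hadj.comp (continuous_list_prod _ fun l _ => hl l)).mul
      (hadj.comp ((continuous_list_prod _ fun l _ => hl l).mul continuous_const))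
  have hsplit : ∀ Q P, rel (Function.update (Function.update x.1 j Q) i P) * (List.ofFn x.2).prod =
      pre Q * Surface.comm P * suf Q := by
    intro Q P
    have : (fun l => Surface.comm (Function.update (Function.update x.1 j Q) i P l)) =
        Function.update (fun l => Surface.comm (Function.update x.1 j Q l)) i (Surface.comm P) := by
      funext l; by_cases h : l = i
      · subst h; simp
      · simp [h]
    rw [rel, this, General.ofFn_prod_update, List.ofFn_eq_map, ← List.map_take, ← List.map_drop]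
    simp only [pre, suf, mul_assoc]
  have hdetT : (List.ofFn x.2).prod.det = 1 := by
    have h := congrArg det hrel
    rw [det_mul, det_one, rel, List.ofFn_eq_map,
      General.det_listProd _ _ fun l _ => comm_det (hdet l).1 (hdet l).2, one_mul] at h
    exact h
  have hupdd : ∀ {Q : Mat r × Mat r}, Q.1.det = 1 → Q.2.det = 1 → ∀ l,
      (Function.update x.1 j Q l).1.det = 1 ∧ (Function.update x.1 j Q l).2.det = 1 := by
    intro Q h1 h2 l
    by_cases h : l = j
    · subst h; simp [h1, h2]
    · simp [h, hdet l]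
  have hps : ∀ {Q : Mat r × Mat r}, Q.1.det = 1 → Q.2.det = 1 →
      (pre Q).det = 1 ∧ (suf Q).det = 1 := fun h1 h2 => by
    refine ⟨General.det_listProd _ _ fun l _ => comm_det (hupdd h1 h2 l).1 (hupdd h1 h2 l).2, ?_⟩
    simp only [suf, det_mul, hdetT, mul_one]
    exact General.det_listProd _ _ fun l _ => comm_det (hupdd h1 h2 l).1 (hupdd h1 h2 l).2
  have hC0 : C (x.1 j) = Surface.comm (x.1 i) := by
    have h := hsplit (x.1 j) (x.1 i)
    rw [Function.update_eq_self, Function.update_eq_self, hrel] at h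
    obtain ⟨hp, hs⟩ := hps (hdet j).1 (hdet j).2
    calc C (x.1 j) = (pre (x.1 j)).adjugate * (pre (x.1 j) * Surface.comm (x.1 i) * suf (x.1 j)) *
          (suf (x.1 j)).adjugate := by rw [← h, mul_one]
      _ = (pre (x.1 j)).adjugate * pre (x.1 j) * Surface.comm (x.1 i) *
          (suf (x.1 j) * (suf (x.1 j)).adjugate) := by simp only [mul_assoc]
      _ = _ := by rw [adj_mul hp, mul_adj hs, one_mul, mul_one]
  have hev := hC.continuousAt.eventually (by rw [hC0]; exact hsolve)
  obtain ⟨Q, ⟨hQW, hQev⟩, hQa, hQb, hQs⟩ :=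
    exists_simple_pair hr0 (hdet j).1 (hdet j).2 (inter_mem hWj hev)
  obtain ⟨hp, hs⟩ := hps hQa hQb
  obtain ⟨P, ⟨hPW, hPirr⟩, hPa, hPb, hPC⟩ :=
    hQev (by simp only [C, det_mul, det_adj hp, det_adj hs, one_mul])
  refine ⟨upd (Q, P), hsub ⟨hQW, hPW⟩, ⟨fun l => ?_, hcls, ?_⟩, ?_, ?_⟩
  · by_cases h : l = i
    · subst h; simp [upd, hPa, hPb]
    · simp only [upd, Function.update_of_ne h]
      exact hupdd hQa hQb l
  · show rel (Function.update (Function.update x.1 j Q) i P) * (List.ofFn x.2).prod = 1
    rw [hsplit, hPC]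
    calc pre Q * C Q * suf Q = pre Q * (pre Q).adjugate * ((suf Q).adjugate * suf Q) := by
          simp only [C, mul_assoc]
      _ = 1 := by rw [mul_adj hp, adj_mul hs, one_mul]
  · simpa [upd] using hPirr
  · simpa [upd, Function.update_of_ne hij.symm] using hQs

end Vale.Agent.P002.Global
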