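import Vale.Agent.P002.Global.IntIrr
import Vale.Agent.P002.Global.Perturb
import Vale.Agent.P002.Pair.Commutant

/-! Density in the whole representation space in genus at least two, given a seed. -/

open Matrix

namespace Vale.Agent.P002.Global

open Vale.Agent.P002.Surface (Mat Tup)

/-- A seed in genus at least two gives density in the whole representation space. -/
theorem whole_density_genus (g r s : ℕ) (J : Fin s → Mat r) (hr : 2 ≤ r)
    (hdet : ∀ i, (J i).det = 1) (hg : 2 ≤ g) (hS : Seed g r s J) :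
    ∃ L : IntermediateField ℚ ℂ, (FiniteDimensional ℚ L ∧ (s = 0 → L = ⊥)) ∧
      (∃ p ∈ HomC (g := g) J, ∃ i, IrrPair (p.1 i)) ∧
      (∀ x ∈ HomC (g := g) J, ∀ f : MvPolynomial (Coord g s r) ℂ,
        (∀ y ∈ HomC J, (∀ q, entries y q ∈ L ∧ IsIntegral ℤ (entries y q)) →
          (∃ i, IrrPair (y.1 i)) → MvPolynomial.eval (entries y) f = 0) →
          MvPolynomial.eval (entries x) f = 0) ∧
      ∀ f₁ f₂ : MvPolynomial (Coord g s r) ℂ,
        (∀ x ∈ HomC (g := g) J, MvPolynomial.eval (entries x) (f₁ * f₂) = 0) →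
        (∀ x ∈ HomC (g := g) J, MvPolynomial.eval (entries x) f₁ = 0) ∨
          (∀ x ∈ HomC (g := g) J, MvPolynomial.eval (entries x) f₂ = 0) :=
  whole_density_irr g r s J hr hdet hg hS
    (fun _ hx _ _ hij hi _ hU => exists_simple_near hr hx hij hi hU) (Pair.smallBad_two hg hr hdet)

/-- In genus at least three the seed is `exists_base`. -/
theorem seed_of_three (g r s : ℕ) (J : Fin s → Mat r) (hr : 2 ≤ r) (hdet : ∀ i, (J i).det = 1)
    (hroot : ∀ i, ∀ μ : ℂ, (J i).charpoly.IsRoot μ → ∃ N > 0, μ ^ N = 1) (hg : 3 ≤ g) (hs : s ≠ 0) :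
    Seed g r s J := fun _ => by
  obtain ⟨L, hL, h⟩ := exists_base g r s J hr hdet hroot hg
  exact ⟨L, ⟨hL, fun h0 => absurd h0 hs⟩, h⟩

end Vale.Agent.P002.Global
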