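import Vale.Agent.P002.Global.Whole

/-! Irreducibility of a handle is cut out by a polynomial in the entries. -/

open Matrix

namespace Vale.Agent.P002.Global

open Vale.Agent.P002.Surface (Mat Tup)

variable {r g s : ℕ}

/-- A polynomial in the entries witnessing the irreducibility of a handle. -/
lemma exists_irr_poly {p : Tup g r × (Fin s → Mat r)} {i : Fin g} (hi : IrrPair (p.1 i)) :
    ∃ h : MvPolynomial (Coord g s r) ℂ, MvPolynomial.eval (entries p) h ≠ 0 ∧
      ∀ y : Tup g r × (Fin s → Mat r), MvPolynomial.eval (entries y) h ≠ 0 → IrrPair (y.1 i) := by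
  classical
  let W : Set (Mat r) := (Submonoid.closure ({(p.1 i).1, (p.1 i).2} : Set (Mat r)) : Set (Mat r))
  have hspan : Submodule.span ℂ W = ⊤ := by
    rw [← Algebra.adjoin_eq_span, show Algebra.adjoin ℂ _ = ⊤ from hi, Algebra.top_toSubmodule]
  obtain ⟨b, hbW, hbs, hbl⟩ := exists_linearIndependent ℂ W
  rw [hspan] at hbs
  let B : Module.Basis b ℂ (Mat r) := Module.Basis.mk hbl (by rw [Subtype.range_coe, hbs])
  have : Finite b := Module.Finite.finite_basis B
  have : Fintype b := Fintype.ofFinite b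
  let e : (Fin r × Fin r) ≃ b := (Matrix.stdBasis ℂ (Fin r) (Fin r)).indexEquiv B
  let ev : Tup g r × (Fin s → Mat r) →
      Matrix (Fin r) (Fin r) (MvPolynomial (Coord g s r) ℂ) →+* Mat r :=
    fun y => (MvPolynomial.eval (entries y)).mapMatrix
  have hword : ∀ m ∈ W, ∃ P : Matrix (Fin r) (Fin r) (MvPolynomial (Coord g s r) ℂ),
      ev p P = m ∧ ∀ y, ev y P ∈ Algebra.adjoin ℂ ({(y.1 i).1, (y.1 i).2} : Set (Mat r)) := by
    intro m hm
    induction hm using Submonoid.closure_induction with
    | mem x hx =>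
      rcases hx with rfl | rfl
      · refine ⟨.of fun a c => MvPolynomial.X (Sum.inl (i, false, a, c)), ?_, fun y => ?_⟩
        · ext a c; simp [ev, entries]
        · have : ev y (.of fun a c => MvPolynomial.X (Sum.inl (i, false, a, c))) = (y.1 i).1 := by
            ext a c; simp [ev, entries]
          rw [this]; exact Algebra.subset_adjoin (by simp)
      · refine ⟨.of fun a c => MvPolynomial.X (Sum.inl (i, true, a, c)), ?_, fun y => ?_⟩
        · ext a c; simp [ev, entries]
        · have : ev y (.of fun a c => MvPolynomial.X (Sum.inl (i, true, a, c))) = (y.1 i).2 := by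
            ext a c; simp [ev, entries]
          rw [this]; exact Algebra.subset_adjoin (by simp)
    | one => exact ⟨1, map_one _, fun y => by rw [map_one]; exact Subalgebra.one_mem _⟩
    | mul x y _ _ hx hy =>
      obtain ⟨P, hP, hP'⟩ := hx
      obtain ⟨Q, hQ, hQ'⟩ := hy
      exact ⟨P * Q, by rw [map_mul, hP, hQ], fun z => by
        rw [map_mul]; exact Subalgebra.mul_mem _ (hP' z) (hQ' z)⟩
  choose P hP hP' using fun x : b => hword x (hbW x.2)
  let F : Matrix (Fin r × Fin r) (Fin r × Fin r) (MvPolynomial (Coord g s r) ℂ) :=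
    .of fun q x => P (e x) q.1 q.2
  refine ⟨F.det, ?_, fun y hy => ?_⟩
  · rw [RingHom.map_det]
    intro h0
    obtain ⟨c, hc, hFc⟩ := exists_mulVec_eq_zero_iff.2 h0
    have hsum : ∑ x, c x • B (e x) = 0 := by
      ext a a'
      have := congrFun hFc (a, a')
      simp only [mulVec, dotProduct, RingHom.mapMatrix_apply, map_apply, F, of_apply,
        Pi.zero_apply] at this
      rw [Matrix.sum_apply]
      simp only [Matrix.smul_apply, smul_eq_mul, Matrix.zero_apply]
      rw [← this]
      refine Finset.sum_congr rfl fun x _ => ?_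
      rw [mul_comm, Module.Basis.mk_apply, ← hP (e x)]
      rfl
    exact hc (funext fun x =>
      Fintype.linearIndependent_iff.1 (B.linearIndependent.comp e e.injective) c hsum x)
  · rw [RingHom.map_det] at hy
    show Algebra.adjoin ℂ _ = ⊤
    rw [← Algebra.toSubmodule_eq_top, eq_top_iff]
    intro X _
    set G := (MvPolynomial.eval (entries y)).mapMatrix F with hG
    have hu : IsUnit G.det := isUnit_iff_ne_zero.2 hy
    set c := G⁻¹ *ᵥ fun q : Fin r × Fin r => X q.1 q.2 with hc
    have hX : X = ∑ x, c x • ev y (P (e x)) := by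
      ext a a'
      have h1 : (G *ᵥ c) (a, a') = X a a' := by
        rw [hc, mulVec_mulVec, mul_nonsing_inv _ hu, one_mulVec]
      rw [← h1, Matrix.sum_apply]
      simp only [mulVec, dotProduct, Matrix.smul_apply, smul_eq_mul]
      exact Finset.sum_congr rfl fun x _ => mul_comm _ _
    rw [hX]
    exact Submodule.sum_mem _ fun x _ => Submodule.smul_mem _ _ (hP' (e x) y)

/-- Integral points with an irreducible handle are dense. -/
theorem whole_density_irr (g r s : ℕ) (J : Fin s → Mat r) (hr : 2 ≤ r) (hdet : ∀ i, (J i).det = 1)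
    (hg : 2 ≤ g) (hS : Seed g r s J) (hP : SimpleNear J g) (hB : SmallBad J g) :
    ∃ L : IntermediateField ℚ ℂ, (FiniteDimensional ℚ L ∧ (s = 0 → L = ⊥)) ∧
      (∃ p ∈ HomC (g := g) J, ∃ i, IrrPair (p.1 i)) ∧
      (∀ x ∈ HomC (g := g) J, ∀ f : MvPolynomial (Coord g s r) ℂ,
        (∀ y ∈ HomC J, (∀ q, entries y q ∈ L ∧ IsIntegral ℤ (entries y q)) →
          (∃ i, IrrPair (y.1 i)) → MvPolynomial.eval (entries y) f = 0) →
          MvPolynomial.eval (entries x) f = 0) ∧
      ∀ f₁ f₂ : MvPolynomial (Coord g s r) ℂ,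
        (∀ x ∈ HomC (g := g) J, MvPolynomial.eval (entries x) (f₁ * f₂) = 0) →
        (∀ x ∈ HomC (g := g) J, MvPolynomial.eval (entries x) f₁ = 0) ∨
          (∀ x ∈ HomC (g := g) J, MvPolynomial.eval (entries x) f₂ = 0) := by
  obtain ⟨L, hL, hne, hcl, hprime⟩ := whole_density g r s J hr hdet hg hS hP hB
  obtain ⟨p, hp, i, hpi⟩ := hne
  obtain ⟨h, hhp, hh⟩ := exists_irr_poly hpi
  refine ⟨L, hL, ⟨p, hp, i, hpi⟩, fun x hx f hf => ?_, hprime⟩
  have key : ∀ z ∈ HomC (g := g) J, MvPolynomial.eval (entries z) (f * h) = 0 := fun z hz =>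
    hcl z hz _ fun y hy hyi => by
      rw [map_mul]
      by_cases h0 : MvPolynomial.eval (entries y) h = 0
      · rw [h0, mul_zero]
      · rw [hf y hy hyi ⟨i, hh y h0⟩, zero_mul]
  rcases hprime f h key with h1 | h1
  · exact h1 x hx
  · exact absurd (h1 p hp) hhp

end Vale.Agent.P002.Global
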