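import Vale.Agent.P002.Global.Defs

/-! A generic handle generates all matrices, and generating pairs form an open set. -/

open Matrix Filter Topology

namespace Vale.Agent.P002.Global

open Vale.Agent.P002.Surface (Mat)

attribute [local instance] Matrix.linftyOpNormedAddCommGroup Matrix.linftyOpNormedSpace
  Matrix.linftyOpNormedRing Matrix.linftyOpNormedAlgebra

variable {r : ℕ}

lemma adjugate_mem_adjoin {a : Mat r} (ha : a.det = 1) :
    a.adjugate ∈ Algebra.adjoin ℂ ({a} : Set (Mat r)) := by
  have h := aeval_self_charpoly a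
  rw [← a.charpoly.X_mul_divX_add, map_add, map_mul, Polynomial.aeval_X, Polynomial.aeval_C] at h
  have hc : a.charpoly.coeff 0 ≠ 0 := fun h0 => by
    have := det_eq_sign_charpoly_coeff a
    rw [h0, mul_zero, ha] at this
    exact one_ne_zero this
  have h2 := congrArg (fun X => a.adjugate * X) h
  simp only [mul_add, mul_zero, ← mul_assoc, adjugate_mul, ha, one_smul, one_mul,
    Algebra.algebraMap_eq_smul_one, mul_smul_comm, mul_one] at h2
  have e : a.adjugate = (-(a.charpoly.coeff 0)⁻¹) • Polynomial.aeval a a.charpoly.divX := by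
    rw [eq_neg_of_add_eq_zero_left h2, smul_neg, ← neg_smul, neg_neg, smul_smul,
      inv_mul_cancel₀ hc, one_smul]
  rw [e]
  exact Subalgebra.smul_mem _ (Polynomial.aeval_mem_adjoin_singleton ℂ a) _

/-- A generic handle is an irreducible pair. -/
lemma Simple.irrPair {a b : Mat r} (ha : a.det = 1) (hs : Simple a.adjugate b) : IrrPair (a, b) := by
  classical
  obtain ⟨V, Vi, l, hV, hA, hl, -, hc⟩ := hs
  have hV' : V * Vi = 1 := mul_eq_one_comm.1 hV
  set T := Algebra.adjoin ℂ ({a, b} : Set (Mat r)) with hT
  let u : (Mat r)ˣ := ⟨V, Vi, hV', hV⟩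
  have hmem : ∀ X, X ∈ ({a.adjugate, b} : Set (Mat r)) → X ∈ T := by
    rintro X (rfl | rfl)
    · exact Algebra.adjoin_mono (Set.singleton_subset_iff.2 (Set.mem_insert _ _)) (adjugate_mem_adjoin ha)
    · exact Algebra.subset_adjoin (by simp)
  let B : Mat r → Prop := fun X => V * X * Vi ∈ T
  have hmul : ∀ X Y, B X → B Y → B (X * Y) := fun X Y hX hY => by
    have : V * (X * Y) * Vi = V * X * Vi * (V * Y * Vi) := by
      calc V * (X * Y) * Vi = V * X * (Vi * V) * Y * Vi := by rw [hV, mul_one]; simp only [mul_assoc]
        _ = _ := by simp only [mul_assoc]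
    simp only [B, this]; exact T.mul_mem hX hY
  have hsmul : ∀ (c : ℂ) X, B X → B (c • X) := fun c X hX => by
    simp only [B, mul_smul_comm, smul_mul_assoc]; exact T.smul_mem hX c
  have hD : B (diagonal l) := by simp only [B, ← hA]; exact hmem _ (by simp)
  have hβ : B (Vi * b * V) := by
    simp only [B]
    rw [show V * (Vi * b * V) * Vi = V * Vi * b * (V * Vi) by simp only [mul_assoc], hV', one_mul,
      mul_one]
    exact hmem _ (by simp)
  have hunit : ∀ i, B (single i i 1) := by
    intro i
    let p : Polynomial ℂ := Lagrange.interpolate Finset.univ l fun j => if j = i then 1 else 0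
    have hp : ∀ j, p.eval (l j) = if j = i then 1 else 0 := fun j =>
      Lagrange.eval_interpolate_at_node _ (hl.injOn) (Finset.mem_univ j)
    have hq : ∀ q : Polynomial ℂ, B (diagonal fun j => q.eval (l j)) := by
      intro q
      induction q using Polynomial.induction_on' with
      | add p q hp hq =>
        simp only [B, Polynomial.eval_add, ← diagonal_add, mul_add, add_mul] at *
        exact T.add_mem hp hq
      | monomial k c =>
        have e : (diagonal fun j => (Polynomial.monomial k c).eval (l j)) = c • diagonal l ^ k := by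
          rw [diagonal_pow, ← diagonal_smul]
          congr 1; funext j; simp
        rw [e]
        refine hsmul c _ ?_
        induction k with
        | zero => simp only [B, pow_zero, mul_one, hV']; exact T.one_mem
        | succ k ih => rw [pow_succ]; exact hmul _ _ (ih (by rw [diagonal_pow, ← diagonal_smul]; congr 1; funext j; simp)) hD
    have := hq p
    simp only [hp] at this
    rwa [show (diagonal fun j => if j = i then (1 : ℂ) else 0) = single i i 1 by
      ext x y; by_cases h : x = y
      · subst h; by_cases hx : x = i <;> simp [hx, single_apply, Ne.symm]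
      · simp [h, single_apply]; intro h1 h2; exact h (h1.symm.trans h2)] at this
  have hall : ∀ m o, B (single m o 1) := by
    intro m o
    let S := Finset.univ.filter fun m => B (single m o 1)
    suffices S = Finset.univ from (Finset.mem_filter.1 (this ▸ Finset.mem_univ m : m ∈ S)).2
    by_contra hne
    obtain ⟨m', hm', i, hi, hbe⟩ := hc S ⟨o, by simp [S, hunit o]⟩ hne
    refine hm' (Finset.mem_filter.2 ⟨Finset.mem_univ _, ?_⟩)
    have h1 := hmul _ _ (hmul _ _ (hunit m') hβ) (Finset.mem_filter.1 hi).2
    rw [single_mul_mul_single, one_mul, mul_one] at h1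
    have := hsmul ((Vi * b * V) m' i)⁻¹ _ h1
    rwa [smul_single, smul_eq_mul, inv_mul_cancel₀ hbe] at this
  show T = ⊤
  rw [eq_top_iff]
  intro X _
  have e : X = V * (Vi * X * V) * Vi := by
    rw [show V * (Vi * X * V) * Vi = V * Vi * X * (V * Vi) by simp only [mul_assoc], hV', one_mul,
      mul_one]
  rw [e, matrix_eq_sum_single (Vi * X * V), Finset.mul_sum, Finset.sum_mul]
  refine T.sum_mem fun i _ => ?_
  rw [Finset.mul_sum, Finset.sum_mul]
  refine T.sum_mem fun j _ => ?_
  have := hsmul ((Vi * X * V) i j) _ (hall i j)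
  rwa [smul_single, smul_eq_mul, mul_one] at this

/-- Generating pairs form an open set. -/
lemma irrPair_nhds {P : Mat r × Mat r} (hP : IrrPair P) : ∀ᶠ Q in 𝓝 P, IrrPair Q := by
  classical
  let W : Set (Mat r) := (Submonoid.closure ({P.1, P.2} : Set (Mat r)) : Set (Mat r))
  have hspan : Submodule.span ℂ W = ⊤ := by
    rw [← Algebra.adjoin_eq_span, show Algebra.adjoin ℂ _ = ⊤ from hP, Algebra.top_toSubmodule]
  obtain ⟨b, hbW, hbs, hbl⟩ := exists_linearIndependent ℂ W
  rw [hspan] at hbs
  let B : Module.Basis b ℂ (Mat r) := Module.Basis.mk hbl (by rw [Subtype.range_coe, hbs])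
  have : Finite b := Module.Finite.finite_basis B
  have : Fintype b := Fintype.ofFinite b
  have hword : ∀ m ∈ W, ∃ w : Mat r × Mat r → Mat r, Continuous w ∧ w P = m ∧
      ∀ Q, w Q ∈ Algebra.adjoin ℂ ({Q.1, Q.2} : Set (Mat r)) := by
    intro m hm
    induction hm using Submonoid.closure_induction with
    | mem x hx =>
      rcases hx with rfl | rfl
      · exact ⟨Prod.fst, continuous_fst, rfl, fun Q => Algebra.subset_adjoin (by simp)⟩
      · exact ⟨Prod.snd, continuous_snd, rfl, fun Q => Algebra.subset_adjoin (by simp)⟩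
    | one => exact ⟨fun _ => 1, continuous_const, rfl, fun Q => Subalgebra.one_mem _⟩
    | mul x y _ _ hx hy =>
      obtain ⟨w, hw, hwP, hwQ⟩ := hx
      obtain ⟨w', hw', hwP', hwQ'⟩ := hy
      exact ⟨fun Q => w Q * w' Q, hw.mul hw', by simp [hwP, hwP'],
        fun Q => Subalgebra.mul_mem _ (hwQ Q) (hwQ' Q)⟩
  choose w hw hwP hwQ using fun x : b => hword x (hbW x.2)
  let F : Mat r × Mat r → Matrix b b ℂ := fun Q => .of fun i j => B.repr (w j Q) i
  have hF : Continuous F := continuous_matrix fun i j =>
    (LinearMap.continuous_of_finiteDimensional ((Finsupp.lapply i).comp B.repr.toLinearMap)).comp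
      (hw j)
  have hFP : (F P).det ≠ 0 := by
    have : F P = 1 := by
      ext i j
      have e : w j P = B j := by rw [hwP, Module.Basis.mk_apply]
      simp [F, e, Finsupp.single_apply, one_apply, eq_comm]
    simp [this]
  filter_upwards [(hF.matrix_det.continuousAt (x := P)).eventually_ne hFP] with Q hQ
  show Algebra.adjoin ℂ _ = ⊤
  rw [← Algebra.toSubmodule_eq_top, eq_top_iff]
  intro X _
  have hu : IsUnit (F Q).det := isUnit_iff_ne_zero.2 hQ
  set c := (F Q)⁻¹ *ᵥ fun i => B.repr X i with hc
  have e : X = ∑ j, c j • w j Q := by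
    apply B.repr.injective
    ext i
    have h1 : (F Q *ᵥ c) i = B.repr X i := by
      rw [hc, mulVec_mulVec, mul_nonsing_inv _ hu, one_mulVec]
    rw [← h1]
    simp only [F, mulVec, dotProduct, of_apply, map_sum, map_smul, Finsupp.coe_finsetSum, Finsupp.coe_smul,
      Finset.sum_apply, Pi.smul_apply, smul_eq_mul]
    exact Finset.sum_congr rfl fun j _ => mul_comm _ _
  rw [e]
  exact Submodule.sum_mem _ fun j _ => Submodule.smul_mem _ _ (hwQ j Q)

end Vale.Agent.P002.Global
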