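import Mathlib

/-! A nonempty affine variety cut out by `m` equations in `ℂⁿ` has Hausdorff dimension at least
`2 (n - m)`. -/

open MvPolynomial Topology

namespace Vale.Agent.P002.Global

variable {n : ℕ}

/-- The kernel of fixing the first `k` coordinates. -/
private noncomputable def fix (v : Fin n → ℂ) (k : ℕ) :
    MvPolynomial (Fin n) ℂ →ₐ[ℂ] MvPolynomial (Fin n) ℂ :=
  aeval fun i => if (i : ℕ) < k then C (v i) else X i

private lemma fix_comp (v : Fin n → ℂ) {j k : ℕ} (h : j ≤ k) (p : MvPolynomial (Fin n) ℂ) :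
    fix v k (fix v j p) = fix v k p := by
  have : (fix v k).comp (fix v j) = fix v k := by
    refine algHom_ext fun i => ?_
    simp only [AlgHom.comp_apply, fix, aeval_X]
    by_cases hj : (i : ℕ) < j
    · simp [hj, show (i : ℕ) < k by omega]
    · simp [hj]
  exact DFunLike.congr_fun this p

private lemma height_point (v : Fin n → ℂ) (k : ℕ) (hk : k ≤ n) :
    (k : ℕ∞) ≤ (RingHom.ker (fix v k)).height := by
  induction k with
  | zero => simp
  | succ k ih =>
    have h1 : (RingHom.ker (fix v k)).IsPrime := RingHom.ker_isPrime _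
    have h2 : (RingHom.ker (fix v (k + 1))).IsPrime := RingHom.ker_isPrime _
    have hlt : RingHom.ker (fix v k) < RingHom.ker (fix v (k + 1)) := by
      refine lt_of_le_of_ne (fun p hp => ?_) fun h => ?_
      · rw [RingHom.mem_ker] at hp ⊢
        rw [← fix_comp v (Nat.le_succ k), hp, map_zero]
      · have hmem : X ⟨k, by omega⟩ - C (v ⟨k, by omega⟩) ∈ RingHom.ker (fix v k) := by
          rw [h, RingHom.mem_ker]
          simp [fix]
        rw [RingHom.mem_ker, map_sub, sub_eq_zero] at hmem
        simp [fix] at hmem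
        have := congrArg (MvPolynomial.eval fun _ => v ⟨k, by omega⟩ + 1) hmem
        simp at this
    calc ((k + 1 : ℕ) : ℕ∞) = (k : ℕ∞) + 1 := by push_cast; rfl
      _ ≤ (RingHom.ker (fix v k)).height + 1 := add_le_add (ih (by omega)) le_rfl
      _ ≤ _ := Ideal.height_add_one_le_of_lt_of_isPrime hlt

/-- The height of a point is at least the number of variables. -/
lemma le_height_vanishingIdeal (v : Fin n → ℂ) :
    (n : ℕ∞) ≤ (vanishingIdeal ℂ ({v} : Set (Fin n → ℂ))).height := by
  refine (height_point v n le_rfl).trans (le_of_eq (congrArg Ideal.height ?_))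
  ext p
  rw [RingHom.mem_ker, mem_vanishingIdeal_singleton_iff]
  have e : fix v n p = C (aeval v p) := by
    have : fix v n = (Algebra.ofId ℂ (MvPolynomial (Fin n) ℂ)).comp (aeval v) := by
      refine algHom_ext fun i => ?_
      simp [fix, Algebra.ofId_apply]
    exact DFunLike.congr_fun this p
  rw [e, map_eq_zero_iff _ (C_injective _ _)]

/-- The common zeros of a family of polynomials. -/
def zeroSet {ι : Type*} (f : ι → MvPolynomial (Fin n) ℂ) : Set (Fin n → ℂ) :=
  {v | ∀ i, MvPolynomial.eval v (f i) = 0}

/-- A nonempty variety cut out by few equations is large. -/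
theorem le_dimH_zeroSet {m : ℕ} (f : Fin m → MvPolynomial (Fin n) ℂ) (hne : (zeroSet f).Nonempty) :
    ((2 * (n - m) : ℕ) : ENNReal) ≤ dimH (zeroSet f) := by
  classical
  set I : Ideal (MvPolynomial (Fin n) ℂ) := Ideal.span (Set.range f) with hI
  obtain ⟨v₀, hv₀⟩ := hne
  have hI' : ∀ v ∈ zeroSet f, I ≤ RingHom.ker (MvPolynomial.eval v) := fun v hv => by
    rw [hI, Ideal.span_le]
    rintro _ ⟨i, rfl⟩
    exact hv i
  have hItop : I ≠ ⊤ := fun h => RingHom.ker_ne_top (MvPolynomial.eval v₀)
    (top_unique (h ▸ hI' v₀ hv₀))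
  have : Nontrivial (MvPolynomial (Fin n) ℂ ⧸ I) := Ideal.Quotient.nontrivial_iff.2 hItop
  obtain ⟨d, g, hginj, hgfin⟩ := exists_finite_inj_algHom_of_fg ℂ (MvPolynomial (Fin n) ℂ ⧸ I)
  choose P hP using fun i : Fin d => Ideal.Quotient.mk_surjective (g (X i))
  let π : (Fin n → ℂ) → Fin d → ℂ := fun v i => MvPolynomial.eval v (P i)
  have hgi : g.toRingHom.IsIntegral := RingHom.Finite.to_isIntegral hgfin
  -- the projection is surjective on the variety
  have hsurj : π '' zeroSet f = Set.univ := by
    refine Set.eq_univ_of_forall fun c => ?_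
    let := g.toRingHom.toAlgebra
    have : Algebra.IsIntegral (MvPolynomial (Fin d) ℂ) (MvPolynomial (Fin n) ℂ ⧸ I) := ⟨hgi⟩
    have hmax : (vanishingIdeal ℂ ({c} : Set (Fin d → ℂ))).IsMaximal := inferInstance
    obtain ⟨Q, hQ, hQc⟩ := Ideal.exists_ideal_over_maximal_of_isIntegral
      (S := MvPolynomial (Fin n) ℂ ⧸ I) (vanishingIdeal ℂ ({c} : Set (Fin d → ℂ))) (by
        rw [show RingHom.ker (algebraMap (MvPolynomial (Fin d) ℂ) (MvPolynomial (Fin n) ℂ ⧸ I)) = ⊥ from
          (RingHom.injective_iff_ker_eq_bot _).1 hginj]; exact bot_le)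
    have hQ' : (Q.comap (Ideal.Quotient.mk I)).IsMaximal :=
      Ideal.comap_isMaximal_of_surjective _ Ideal.Quotient.mk_surjective
    obtain ⟨v, hv⟩ := isMaximal_iff_eq_vanishingIdeal_singleton.1 hQ'
    have hmem : ∀ p, Ideal.Quotient.mk I p ∈ Q → MvPolynomial.eval v p = 0 := fun p hp => by
      have : p ∈ Q.comap (Ideal.Quotient.mk I) := hp
      rw [hv, mem_vanishingIdeal_singleton_iff] at this
      simpa using this
    refine ⟨v, fun i => hmem _ (by
      rw [Ideal.Quotient.eq_zero_iff_mem.2 (show f i ∈ I from Ideal.subset_span (Set.mem_range_self i))]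
      exact Q.zero_mem),
      funext fun i => ?_⟩
    have h := hmem (P i - C (c i)) (by
      have hm : (X i - C (c i) : MvPolynomial (Fin d) ℂ) ∈ vanishingIdeal ℂ ({c} : Set (Fin d → ℂ)) := by
        simp [mem_vanishingIdeal_singleton_iff]
      rw [← hQc, Ideal.mem_comap] at hm
      have e : g (C (c i)) = Ideal.Quotient.mk I (C (c i)) := by
        rw [← MvPolynomial.algebraMap_eq, AlgHom.commutes]; rfl
      show Ideal.Quotient.mk I (P i - C (c i)) ∈ Q
      rw [map_sub, hP, ← e, ← map_sub]
      exact hm)
    simpa [sub_eq_zero, π] using h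
  -- the fibre through a point is finite, so `n ≤ m + d`
  have hnd : n ≤ m + d := by
    set c := π v₀
    let s : Finset (MvPolynomial (Fin n) ℂ) :=
      Finset.univ.image f ∪ Finset.univ.image fun i => P i - C (c i)
    have hle : Ideal.span (s : Set (MvPolynomial (Fin n) ℂ)) ≤
        vanishingIdeal ℂ ({v₀} : Set (Fin n → ℂ)) := by
      rw [Ideal.span_le]
      intro p hp
      simp only [s, Finset.coe_union, Finset.coe_image, Finset.coe_univ, Set.image_univ,
        Set.mem_union, Set.mem_range] at hp
      rcases hp with ⟨i, rfl⟩ | ⟨i, rfl⟩ <;> simp [mem_vanishingIdeal_singleton_iff, c, π]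
      exact hv₀ i
    have : (vanishingIdeal ℂ ({v₀} : Set (Fin n → ℂ))).IsPrime := Ideal.IsMaximal.isPrime inferInstance
    obtain ⟨p, hp, hpv⟩ := Ideal.exists_minimalPrimes_le hle
    have : p.IsPrime := hp.isPrime
    have hIp : I ≤ p := by
      rw [hI, Ideal.span_le]
      rintro _ ⟨i, rfl⟩
      exact hp.1.2 (Ideal.subset_span (by simp [s]))
    -- every coordinate is algebraic, hence constant, modulo `p`
    let K := MvPolynomial (Fin n) ℂ ⧸ p
    let q : (MvPolynomial (Fin n) ℂ ⧸ I) →+* K := Ideal.Quotient.factor hIp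
    have hqC : q.comp g.toRingHom =
        ((Ideal.Quotient.mk p).comp C).comp (MvPolynomial.eval c) := by
      refine MvPolynomial.ringHom_ext (fun a => ?_) fun i => ?_
      · simp only [RingHom.comp_apply, eval_C]
        have e : g (C a) = Ideal.Quotient.mk I (C a) := by
          rw [← MvPolynomial.algebraMap_eq, AlgHom.commutes]; rfl
        show q (g (C a)) = _
        rw [e]; rfl
      · simp only [RingHom.comp_apply, eval_X]
        show q (g (X i)) = _
        rw [← hP]
        show Ideal.Quotient.mk p (P i) = Ideal.Quotient.mk p (C (c i))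
        exact Ideal.Quotient.eq.2 (hp.1.2 (Ideal.subset_span (by simp [s])))
    have hconst : ∀ k, ∃ z : ℂ, X k - C z ∈ p := by
      intro k
      obtain ⟨μ, hμm, hμ⟩ := hgi (Ideal.Quotient.mk I (X k))
      have hm : (μ.map (MvPolynomial.eval c)).Monic := hμm.map _
      have h0 : Polynomial.eval₂ ((Ideal.Quotient.mk p).comp C) (Ideal.Quotient.mk p (X k))
          (μ.map (MvPolynomial.eval c)) = 0 := by
        rw [Polynomial.eval₂_map, ← hqC]
        have := congrArg q hμ
        rwa [map_zero, Polynomial.hom_eval₂] at this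
      rw [(IsAlgClosed.splits (μ.map (MvPolynomial.eval c))).eq_prod_roots_of_monic hm] at h0
      simp only [Polynomial.eval₂_multiset_prod, Multiset.map_map, Multiset.prod_eq_zero_iff,
        Multiset.mem_map, Function.comp_apply, Polynomial.eval₂_sub, Polynomial.eval₂_X,
        Polynomial.eval₂_C, RingHom.comp_apply] at h0
      obtain ⟨z, -, hz⟩ := h0
      exact ⟨z, by rwa [← map_sub, Ideal.Quotient.eq_zero_iff_mem] at hz⟩
    choose z hz using hconst
    have hpe : p = vanishingIdeal ℂ ({v₀} : Set (Fin n → ℂ)) := by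
      refine le_antisymm hpv ?_
      have hzv : z = v₀ := funext fun k => by
        have := hpv (hz k)
        simp only [mem_vanishingIdeal_singleton_iff, map_sub, aeval_X, aeval_C] at this
        simpa [sub_eq_zero] using (sub_eq_zero.1 this).symm
      intro a ha
      have : Ideal.Quotient.mk p a = Ideal.Quotient.mk p (C (MvPolynomial.eval v₀ a)) := by
        have : (Ideal.Quotient.mk p) = ((Ideal.Quotient.mk p).comp C).comp (MvPolynomial.eval v₀) := by
          refine MvPolynomial.ringHom_ext (fun b => by simp) fun k => ?_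
          simp only [RingHom.comp_apply, eval_X]
          exact Ideal.Quotient.eq.2 (hzv ▸ hz k)
        exact DFunLike.congr_fun this a
      rw [mem_vanishingIdeal_singleton_iff, aeval_eq_eval] at ha
      rw [show MvPolynomial.eval v₀ a = 0 from ha, map_zero, map_zero] at this
      exact Ideal.Quotient.eq_zero_iff_mem.1 this
    have hh : p.height ≤ (s.card : ℕ∞) := Ideal.height_le_card_of_mem_minimalPrimes_span_finset hp
    have hs : s.card ≤ m + d := (Finset.card_union_le _ _).trans (add_le_add
      (Finset.card_image_le.trans (by simp)) (Finset.card_image_le.trans (by simp)))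
    rw [hpe] at hh
    exact (ENat.natCast_le_natCast.1 ((le_height_vanishingIdeal v₀).trans hh)).trans hs
  -- Hausdorff dimension
  have hπ : ContDiff ℂ 1 π := by
    refine contDiff_pi.2 fun i => ?_
    show ContDiff ℂ 1 fun v : Fin n → ℂ => MvPolynomial.eval v (P i)
    induction P i using MvPolynomial.induction_on with
    | C a => simpa using contDiff_const
    | add p q hp hq => simpa only [map_add] using hp.add hq
    | mul_X p k hp => simpa only [map_mul, eval_X] using hp.mul (contDiff_apply ℂ ℂ k)
  have h2 : dimH (π '' zeroSet f) ≤ dimH (zeroSet f) :=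
    (hπ.restrict_scalars ℝ).contDiffOn.dimH_image_le convex_univ (Set.subset_univ _)
  rw [hsurj, Real.dimH_univ_eq_finrank] at h2
  refine le_trans ?_ h2
  rw [Module.finrank_pi_fintype]
  simp only [Complex.finrank_real_complex, Finset.sum_const, Finset.card_univ, Fintype.card_fin,
    smul_eq_mul]
  exact_mod_cast (by omega : 2 * (n - m) ≤ d * 2)

end Vale.Agent.P002.Global
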