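import Vale.Agent.P002.Global.Base
import Vale.Agent.P002.Global.Propagate
import Vale.Agent.P002.Global.Irr

/-! Integral points are dense among all representations with an irreducible handle. -/

open Matrix Filter Topology

namespace Vale.Agent.P002.Global

open Vale.Agent.P002.Surface (Mat Tup PF)

attribute [local instance] Matrix.linftyOpNormedAddCommGroup Matrix.linftyOpNormedSpace
  Matrix.linftyOpNormedRing Matrix.linftyOpNormedAlgebra

variable {r n s : ℕ}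

/-- The conclusion of `exists_base`: an integral-dense irreducible piece around a point with
irreducible first handle. -/
def Seed (g r s : ℕ) (J : Fin s → Mat r) : Prop :=
  ∀ hg : 2 ≤ g,
    ∃ L : IntermediateField ℚ ℂ, (FiniteDimensional ℚ L ∧ (s = 0 → L = ⊥)) ∧
    ∃ p ∈ HomC (g := g) J, IrrPair (p.1 ⟨0, by omega⟩) ∧
      ∃ U : Set (Tup g r × (Fin s → Mat r)), IsOpen U ∧ p ∈ U ∧
        (∀ x ∈ U ∩ HomC J, ∀ f : MvPolynomial (Coord g s r) ℂ,
          (∀ y ∈ HomC J, (∀ q, entries y q ∈ L ∧ IsIntegral ℤ (entries y q)) →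
            MvPolynomial.eval (entries y) f = 0) →
            MvPolynomial.eval (entries x) f = 0) ∧
        ∀ U' : Set (Tup g r × (Fin s → Mat r)), IsOpen U' → p ∈ U' →
        ∀ f₁ f₂ : MvPolynomial (Coord g s r) ℂ,
          (∀ x ∈ U' ∩ HomC J, MvPolynomial.eval (entries x) (f₁ * f₂) = 0) →
            (∀ x ∈ U ∩ HomC J, MvPolynomial.eval (entries x) f₁ = 0) ∨
              (∀ x ∈ U ∩ HomC J, MvPolynomial.eval (entries x) f₂ = 0)

/-- The statement of the perturbation lemma. -/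
def SimpleNear (J : Fin s → Mat r) (g : ℕ) : Prop :=
  ∀ x ∈ HomC (g := g) J, ∀ i j : Fin g, i ≠ j → IrrPair (x.1 i) →
    ∀ U ∈ 𝓝 x, ∃ y ∈ U, y ∈ HomC J ∧ IrrPair (y.1 i) ∧
      Simple (y.1 j).1.adjugate (y.1 j).2

/-- Near a representation with an irreducible handle there is one with generic first handle. -/
lemma exists_simple_first {J : Fin s → Mat r} (hP : SimpleNear J (n + 2))
    {x : Tup (n + 2) r × (Fin s → Mat r)} (hx : x ∈ HomC J) {i : Fin (n + 2)}
    (hi : IrrPair (x.1 i)) {U : Set (Tup (n + 2) r × (Fin s → Mat r))} (hU : U ∈ 𝓝 x) :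
    ∃ y ∈ U, y ∈ HomC J ∧ Simple (y.1 0).1.adjugate (y.1 0).2 := by
  by_cases h0 : i = 0
  · subst h0
    obtain ⟨V, hVU, hVo, hxV⟩ := mem_nhds_iff.1 hU
    obtain ⟨y, hyV, hy, -, hs⟩ := hP x hx 0 1 (by simp) hi V (hVo.mem_nhds hxV)
    obtain ⟨z, hzV, hz, -, hs'⟩ := hP y hy 1 0 (by simp) (hs.irrPair (hy.1 1).1) V (hVo.mem_nhds hyV)
    exact ⟨z, hVU hzV, hz, hs'⟩
  · obtain ⟨y, hyU, hy, -, hs⟩ := hP x hx i 0 h0 hi U hU
    exact ⟨y, hyU, hy, hs⟩

theorem good_density (g r s : ℕ) (J : Fin s → Mat r) (hr : 2 ≤ r) (hdet : ∀ i, (J i).det = 1)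
    (hg : 2 ≤ g) (hS : Seed g r s J) (hP : SimpleNear J g) :
    ∃ L : IntermediateField ℚ ℂ, (FiniteDimensional ℚ L ∧ (s = 0 → L = ⊥)) ∧
      (∃ p ∈ HomC (g := g) J, ∃ i, IrrPair (p.1 i)) ∧
      (∀ x ∈ HomC (g := g) J, (∃ i, IrrPair (x.1 i)) → ∀ f : MvPolynomial (Coord g s r) ℂ,
        (∀ y ∈ HomC J, (∀ q, entries y q ∈ L ∧ IsIntegral ℤ (entries y q)) →
          MvPolynomial.eval (entries y) f = 0) → MvPolynomial.eval (entries x) f = 0) ∧
      ∀ f₁ f₂ : MvPolynomial (Coord g s r) ℂ,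
        (∀ x ∈ HomC (g := g) J, (∃ i, IrrPair (x.1 i)) →
          MvPolynomial.eval (entries x) (f₁ * f₂) = 0) →
        (∀ x ∈ HomC (g := g) J, (∃ i, IrrPair (x.1 i)) → MvPolynomial.eval (entries x) f₁ = 0) ∨
          (∀ x ∈ HomC (g := g) J, (∃ i, IrrPair (x.1 i)) → MvPolynomial.eval (entries x) f₂ = 0) := by
  obtain ⟨L, hL, p, hp, hpi, U, hUo, hpU, hcl, hprime⟩ := hS hg
  obtain ⟨n, rfl⟩ : ∃ n, g = n + 2 := ⟨g - 2, by omega⟩
  obtain ⟨x₀, hx₀U, hx₀, hs₀⟩ := exists_simple_first hP hp hpi (hUo.mem_nhds hpU)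
  -- vanishing on the piece gives vanishing at every good point
  have key : ∀ f : MvPolynomial (Coord (n + 2) s r) ℂ,
      (∀ x ∈ U ∩ HomC J, MvPolynomial.eval (entries x) f = 0) →
      ∀ x ∈ HomC (g := n + 2) J, (∃ i, IrrPair (x.1 i)) → MvPolynomial.eval (entries x) f = 0 := by
    rintro f hf x hx ⟨i, hi⟩
    by_contra hne
    have hc : Continuous fun z : Tup (n + 2) r × (Fin s → Mat r) =>
        MvPolynomial.eval (entries z) f := (PF.contDiff (pf_eval f)).continuous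
    obtain ⟨y, hyne, hy, hys⟩ :=
      exists_simple_first hP hx hi (hc.continuousAt.eventually_ne hne)
    refine hyne (propagate (by omega) hdet hx₀ hy hs₀ hys (pf_eval f) ?_)
    filter_upwards [hUo.mem_nhds hx₀U] with z hz hzH
    exact hf z ⟨hz, hzH⟩
  refine ⟨L, hL, ⟨p, hp, _, hpi⟩, fun x hx hxi f hf => key f (fun z hz => hcl z hz f hf) x hx hxi,
    fun f₁ f₂ h12 => ?_⟩
  obtain ⟨U', hU', hU'o, hpU'⟩ := eventually_nhds_iff.1
    ((((continuous_apply (⟨0, by omega⟩ : Fin (n + 2))).comp continuous_fst).tendsto p).eventually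
      (irrPair_nhds hpi))
  rcases hprime U' hU'o hpU' f₁ f₂ (fun x hx => h12 x hx.2 ⟨_, hU' x hx.1⟩) with h | h
  · exact Or.inl (key f₁ h)
  · exact Or.inr (key f₂ h)

end Vale.Agent.P002.Global
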