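import Vale.Agent.P002.Global.DenseApply
import Vale.Agent.P002.Global.Main

/-! From generic handles to the whole representation space. -/

open Matrix Filter Topology

namespace Vale.Agent.P002.Global

open Vale.Agent.P002.Surface (Mat Tup PF PMap)

attribute [local instance] Matrix.linftyOpNormedAddCommGroup Matrix.linftyOpNormedSpace
  Matrix.linftyOpNormedRing Matrix.linftyOpNormedAlgebra

variable {r g s : ℕ}

/-- Outside a set of small dimension, representations are limits of ones with an irreducible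
handle. -/
def SmallBad (J : Fin s → Mat r) (g : ℕ) : Prop :=
  ∃ E : Set (Tup g r × (Fin s → Mat r)),
    dimH E < ((2 * ((2 * g + s - 1) * (r ^ 2 - 1)) : ℕ) : ENNReal) ∧
      ∀ z ∈ Lift J, z ∉ E →
        ∀ U ∈ 𝓝 ((z.1, bdC J z.2) : Tup g r × (Fin s → Mat r)),
          ∃ y ∈ U, y ∈ HomC J ∧ ∃ i, IrrPair (y.1 i)

theorem whole_density (g r s : ℕ) (J : Fin s → Mat r) (hr : 2 ≤ r) (hdet : ∀ i, (J i).det = 1)
    (hg : 2 ≤ g) (hS : Seed g r s J) (hP : SimpleNear J g) (hB : SmallBad J g) :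
    ∃ L : IntermediateField ℚ ℂ, (FiniteDimensional ℚ L ∧ (s = 0 → L = ⊥)) ∧
      (∃ p ∈ HomC (g := g) J, ∃ i, IrrPair (p.1 i)) ∧
      (∀ x ∈ HomC (g := g) J, ∀ f : MvPolynomial (Coord g s r) ℂ,
        (∀ y ∈ HomC J, (∀ q, entries y q ∈ L ∧ IsIntegral ℤ (entries y q)) →
          MvPolynomial.eval (entries y) f = 0) → MvPolynomial.eval (entries x) f = 0) ∧
      ∀ f₁ f₂ : MvPolynomial (Coord g s r) ℂ,
        (∀ x ∈ HomC (g := g) J, MvPolynomial.eval (entries x) (f₁ * f₂) = 0) →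
        (∀ x ∈ HomC (g := g) J, MvPolynomial.eval (entries x) f₁ = 0) ∨
          (∀ x ∈ HomC (g := g) J, MvPolynomial.eval (entries x) f₂ = 0) := by
  obtain ⟨L, hL, hne, hcl, hprime⟩ := good_density g r s J hr hdet hg hS hP
  obtain ⟨n, rfl⟩ : ∃ n, g = n + 2 := ⟨g - 2, by omega⟩
  obtain ⟨E, hE, hEgood⟩ := hB
  have key : ∀ f : MvPolynomial (Coord (n + 2) s r) ℂ,
      (∀ x ∈ HomC (g := n + 2) J, (∃ i, IrrPair (x.1 i)) → MvPolynomial.eval (entries x) f = 0) →
      ∀ x ∈ HomC (g := n + 2) J, MvPolynomial.eval (entries x) f = 0 := by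
    intro f hf x hx
    by_contra hne
    have hc : Continuous fun z : Tup (n + 2) r × (Fin s → Mat r) =>
        MvPolynomial.eval (entries z) f := (PF.contDiff (pf_eval f)).continuous
    choose k hk hxk using hx.2.1
    have hz : (x.1, k) ∈ Lift J := ⟨hx.1, hk, by
      rw [show bdC J k = x.2 from funext fun i => (hxk i).symm]; exact hx.2.2⟩
    have hbd : PMap fun z : Tup (n + 2) r × (Fin s → Mat r) =>
        ((z.1, bdC J z.2) : Tup (n + 2) r × (Fin s → Mat r)) :=
      PMap.fst.prodMk (PMap.pi fun i =>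
        (((PMap.proj i).comp PMap.snd).mul (PMap.const _)).mul ((PMap.proj i).comp PMap.snd).adjugate)
    obtain ⟨z, hzL, hzne, hzE⟩ := exists_lift_off (by omega) hdet hE
      (PF.comp (pf_eval f) hbd) hz (by
        rw [show bdC J k = x.2 from funext fun i => (hxk i).symm]; exact hne)
    obtain ⟨y, hy, hyH, hyi⟩ := hEgood z hzL hzE _ (hc.continuousAt.eventually_ne hzne)
    exact hy (hf y hyH hyi)
  refine ⟨L, hL, hne, fun x hx f hf => key f (fun z hz hzi => hcl z hz hzi f hf) x hx,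
    fun f₁ f₂ h12 => ?_⟩
  rcases hprime f₁ f₂ (fun x hx _ => h12 x hx) with h | h
  · exact Or.inl (key f₁ h)
  · exact Or.inr (key f₂ h)

end Vale.Agent.P002.Global
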